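import Vale.Agent.P270U.Defs
import Vale.Agent.P281Z.En.Merg
import Vale.Agent.P281Z.Fi.Fib
import Vale.Agent.P281Z.Rs.All

/-!
# P270U, row MPA: the map given by the sections
-/

open scoped Manifold ContDiff Topology
open Set Filter Function
open Vale.Agent.P272.K Vale.Agent.P285.H281.FD Vale.Agent.P281Z
open Vale.Agent.P277.HD (pull)

noncomputable section

namespace Vale.Agent.P270U

theorem mpa : MPA := by
  intro n r X B s hX hB hs ⟨x₀, _, a, ha, k1, k2⟩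
  obtain ⟨P⟩ := Pb.psex r
  have := P.conn
  obtain ⟨V, π, S, g, ε, hM, hg, -, hP, hε⟩ :=
    En.merg_of Rs.res n r X B s P hX.conn hB hs ⟨0, a, x₀, ha, k1⟩
  obtain ⟨x, x1, x2, x3, x4⟩ := ((hM.1.freq x₀).and_eventually ((lb_near hB ha).and
    (((sec_hol (hs 0) ha).ne_near k1).and k2.near))).exists
  obtain ⟨y, rfl⟩ := hM.ex x1
  obtain ⟨h, hh⟩ := P.lb.cover (g y)
  have e0 := (hε a h y x2 hh).2.1 x1
  have l1 : IsLB n (pull π B) := hM.hol.lb hB
  have l2 : IsLB n (pull g P.H) := hg.lb P.lb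
  have hc : ∀ (i j : B.ι × P.H.ι) z, π z ∈ B.U i.1 ∧ g z ∈ P.H.U i.2 →
      π z ∈ B.U j.1 ∧ g z ∈ P.H.U j.2 → ε i.1 i.2 z =
        B.g i.1 j.1 (π z) * P.H.g i.2 j.2 (g z) ^ (-1 : ℤ) * ε j.1 j.2 z := fun i j z hi hj => by
    rw [zpow_neg_one, mul_right_comm, ← (hε _ _ z hi.1 hi.2).2.2.2 _ _ hj.1 hj.2,
      mul_inv_cancel_right₀ (P.lb.ne_zero _ _ _ hi.2 hj.2)]
  have sb : Sbm n r g y := by
    have p0 : P.x h (g y) 0 ≠ 0 := fun e =>
      x3 (by rw [(hε a h y x2 hh).2.2.1 0, e, mul_zero])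
    refine Fi.sbm_of_ind (h := fun (b : Fin r) p => P.x h p b.succ / P.x h p 0) (hg.at y)
      (fun b => (P.xhol hh _).div (P.xhol hh _) p0)
      (ind_congr ((hM.sbm x1).ind (hM.hol.at y) x4) fun b => ?_)
    filter_upwards [hM.hol.cont.continuousAt.eventually (lb_near hB x2),
      hg.cont.continuousAt.eventually (lb_near P.lb hh), (hε a h y x2 hh).1.ne_near e0]
      with z z1 z2 z3
    rw [(hε a h z z1 z2).2.2.1, (hε a h z z1 z2).2.2.1, mul_div_mul_left _ _ z3]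
  refine ⟨V, π, S, P, g, hM, hP hX.prj, hg, range_eq_univ.1 ((Ana.remm _ _ V P.P g hg).eq_univ
    (sb.map_nhds (hg.at y) ▸ range_mem_map)), (pull π B).mul (zp (pull g P.H) (-1)),
    fun i => ε i.1 i.2, lb_mul l1 (lb_zp l2 _), ?_,
    isSec_of (fun i z hi => (hε _ _ z hi.1 hi.2).1) hc, y,
    fun i hi => (hε _ _ y hi.1 hi.2).2.1 x1⟩
  rw [cls_mul l1 (lb_zp l2 _), cls_zp l2, neg_one_zsmul, sub_eq_add_neg]

end Vale.Agent.P270U
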