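import Vale.Agent.P270H.Defs

/-!
# P270U: nef dimension at most `κ + 4` (definitions, rows)
-/

open scoped Manifold ContDiff Topology
open Set Filter Function
open Vale.Agent.P272.K Vale.Agent.P285.H281.FD Vale.Agent.P281Z Vale.Agent.P280Z
open Vale.Agent.P277Z.Slc (IsDiv Snc lin LEq)
open Vale.Agent.P277.HD (pull)
open Vale.Agent.P285N (Pr)
open Vale.Agent.P285N.Tp (Rd FLC Eff NumEff)
open Vale.Agent.P285N.St (SubPair Iso Psef)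
open Vale.Agent.P285W.J (Tr)
open Vale.Agent.P285W.Bs (Cp)
open Vale.Agent.P285S (Ef Pse)
open Vale.Agent.P285T.Cb (Wp)
open Vale.Agent.P270G (ForP)
open Vale.Agent.P270H (G0 Gf Bp Wk)

noncomputable section

namespace Vale.Agent.P270U

variable {d : ℕ} {κ ι : Type} [Fintype κ]

/-- `κ(L) ≥ r` -/
def Kp (Z : Mf d) (L : Bd Z.X) (r : ℕ) : Prop :=
  ∃ (j : ℕ) (s : Fin (r + 1) → (L.pow j).ι → Z.X → ℂ), 0 < j ∧ (∀ b, IsSec d (L.pow j) (s b)) ∧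
    Rk d univ (L.pow j) s

/-- big classes -/
def Big (Z : Mf d) (β : Pic d Z.X) : Prop :=
  ∀ H : Bd Z.X, IsLB d H → ∃ j : ℕ, 0 < j ∧ Ef Z (j • β - cls d H)

/-- `β` dominates the pull back of a positive bundle under a map onto an `r`-fold -/
def Dm (Z : Mf d) (β : Pic d Z.X) (r : ℕ) : Prop :=
  ∃ (Y : Mf r) (H : Bd Y.X) (g : Z.X → Y.X), ConnectedSpace Y.X ∧ IsLB r H ∧ Pos r H ∧
    HolM d r g ∧ Surjective g ∧ Pse Z (β - cls d (pull g H))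

/-- the same on a model -/
def Mp (Z : Mf d) (E : Bd Z.X) (r : ℕ) : Prop :=
  ∃ (W : Mf d) (τ : W.X → Z.X) (S : Set Z.X), Modif d τ S ∧ W.Prj ∧ Dm W (cls d (pull τ E)) r

/-- `L` plus the negative components is big -/
def Bgn (A : Pr d κ ι) (m : κ → ℤ) (L : Bd A.Z.X) : Prop :=
  ∀ (O : κ → Bd A.Z.X) (σ : ∀ l, (O l).ι → A.Z.X → ℂ), (∀ l, IsDiv d (A.G l) (O l) (σ l)) →
    ∀ H : Bd A.Z.X, IsLB d H → ∃ j c : ℕ,
      Pse A.Z (j • cls d L + ∑ l, (c * (-m l).toNat) • cls d (O l) - cls d H)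

/-- ROW MPA: the map given by the sections -/
def MPA : Prop := ∀ (n r : ℕ) (X : Mf n) (B : Bd X.X) (s : Fin (r + 1) → B.ι → X.X → ℂ), Cp X →
  IsLB n B → (∀ b, IsSec n B (s b)) → Rk n univ B s →
  ∃ (X₁ : Mf n) (u : X₁.X → X.X) (S : Set X.X) (P : PS r) (γ : X₁.X → P.P.X), Modif n u S ∧
    X₁.Prj ∧ HolM n r γ ∧ Surjective γ ∧ Ef X₁ (cls n (pull u B) - cls n (pull γ P.H))

/-- ROW MPB: the map descends -/
def MPB : Prop := ∀ T : CT, T.OK → FLC T → ∀ (n w r c : ℕ) (X : Mf n) (W : Mf w)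
  (f : X.X → W.X) (hf : Fibn n w f) (B : Bd X.X) (E : Bd W.X) (P : PS r) (γ : X.X → P.P.X), Cp X →
  Cp W → IsLB n B → IsLB w E → 0 < c → T.pull hf.hol (T.c1 W E) = (c : ℝ) • T.c1 X B →
  HolM n r γ → Surjective γ → Ef X (cls n B - cls n (pull γ P.H)) → Mp W E r

/-- ROW FIBD: the dichotomy on the fibres -/
def FIBD : Prop := ∀ d ≤ 4, ForP d fun T κ _ _ A m N => FLC T → ∀ (L M : Bd A.Z.X)
  (O : κ → Bd A.Z.X) (σ : ∀ l, (O l).ι → A.Z.X → ℂ) (φ : κ → ℕ), A.Ok m N →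
  (∀ l, 0 ≤ m l ∧ m l < N) → (∀ l, IsDiv d (A.G l) (O l) (σ l)) → IsLB d L → IsLB d M →
  P285N.Tp.Nf A.Z L → P285N.Tp.Nf A.Z M →
  cls d A.P + cls d M = cls d L + ∑ l, φ l • cls d (O l) → Pse A.Z (cls d A.P) →
  Big A.Z (cls d A.P + cls d M) ∨ ¬ Neg d (Tr T A.Z (T.c1 A.Z L))

/-- ROW SMD: semiample bundles are big or trivial on a covering family of curves -/
def SMD : Prop := ∀ T : CT, T.OK → ∀ (d : ℕ) (Y Z : Mf d) (π : Y.X → Z.X) (S : Set Z.X)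
  (hπ : Modif d π S) (P : Bd Y.X) (L : Bd Z.X) (c : ℝ) (e : T.H Y), Cp Z → Y.Prj → IsLB d P →
  Semiample d P → IsLB d L → P285N.Tp.Nf Z L → 0 < c → P285W.J.Ef T Y e →
  T.c1 Y P = c • T.pull hπ.hol (T.c1 Z L) + e →
  Big Y (cls d P) ∨ ¬ Neg d (Tr T Z (T.c1 Z L))

/-- ROW MOD: the pair on a given model -/
def MOD : Prop := ∀ d, ForP d fun _ _ ι _ A m N => ∀ (L M : Bd A.Z.X) (W : Mf d)
  (τ : W.X → A.Z.X) (S : Set A.Z.X), Gf A m N L M → Modif d τ S → W.Prj →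
  ∃ (κ' : Type) (_ : Fintype κ') (A' : Pr d κ' ι) (m' : κ' → ℤ) (π : A'.Z.X → W.X)
    (S' : Set W.X), Modif d π S' ∧ Gf A' m' N (pull π (pull τ L)) (pull π (pull τ M)) ∧
    cls d A'.P = cls d (pull π (pull τ A.P))

/-- ROW TRU: trivial curves on a model -/
def TRU : Prop := ∀ T : CT, T.OK → ∀ (d : ℕ) (Y Z : Mf d) (π : Y.X → Z.X) (S : Set Z.X)
  (hπ : Modif d π S) (l : T.H Z) (c : ℝ), Cp Z → Y.Prj → 0 < c →
  (Neg d (Tr T Z l) ∨ (T.Dg Z 1 l ∧ Neg d (P285W.Bs.Gd T Z l 1))) →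
  Neg d (Tr T Y (c • T.pull hπ.hol l))

/-- ROW REL: from the fibres to the total space -/
def REL : Prop := ∀ d, ForP d fun T _ _ _ A m N => FLC T → ∀ (L M : Bd A.Z.X) (a r : ℕ),
  Gf A m N L M → Dm A.Z (a • cls d A.P) r → d ≤ r + 4 → Neg d (Tr T A.Z (T.c1 A.Z L)) →
  Bgn A m L

/-- ROW BGN -/
def BGN : Prop := ∀ d, ForP d fun _ _ _ _ A m N => ∀ L : Bd A.Z.X, A.Ok m N → IsLB d L →
  Bp A m L → Bgn A m L → Big A.Z (cls d L)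

/-- ROW BPA: a model on which `a L` plus a multiple of the negative components is adjoint -/
def BPA : Prop := ∀ d, ForP d fun _ _ ι _ A m N => ∀ L M : Bd A.Z.X, G0 A m N L M → Bp A m L →
  Big A.Z (cls d L) →
  ∃ (κ' : Type) (_ : Fintype κ') (A' : Pr d κ' ι) (m' : κ' → ℤ) (π : A'.Z.X → A.Z.X)
    (S : Set A.Z.X) (O : κ' → Bd A'.Z.X) (σ : ∀ l, (O l).ι → A'.Z.X → ℂ) (a c x : ℕ) (b : κ' → ℕ)
    (H : Bd A'.Z.X), Modif d π S ∧ G0 A' m' N (pull π L) (pull π M) ∧ Bp A' m' (pull π L) ∧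
    (∀ l, IsConnected (A'.G l)) ∧ (∀ l, IsDiv d (A'.G l) (O l) (σ l)) ∧ 0 < a ∧ 0 < x ∧
    (∀ l, b l ≤ x) ∧ IsLB d H ∧ Pos d H ∧
    a • cls d (pull π L) + ∑ l, (c * (-m' l).toNat) • cls d (O l) =
      x • cls d (Bd.can d A'.Z.X) + ∑ l, b l • cls d (O l) + cls d H

/-- ROW BPB: finite generation -/
def BPB : Prop := ∀ d, ForP d fun _ κ _ _ A m N => ∀ (L M H : Bd A.Z.X) (O : κ → Bd A.Z.X)
  (σ : ∀ l, (O l).ι → A.Z.X → ℂ) (a c x : ℕ) (b : κ → ℕ), G0 A m N L M → Bp A m L →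
  (∀ l, IsConnected (A.G l)) → (∀ l, IsDiv d (A.G l) (O l) (σ l)) → 0 < a → 0 < x →
  (∀ l, b l ≤ x) → IsLB d H → Pos d H →
  a • cls d L + ∑ l, (c * (-m l).toNat) • cls d (O l) =
    x • cls d (Bd.can d A.Z.X) + ∑ l, b l • cls d (O l) + cls d H → Semiample d L

/-- **BGS**: the base -/
def BGS : Prop := ∀ d, ForP d fun T _ _ _ A m N => FLC T → ∀ (L M : Bd A.Z.X) (a r : ℕ),
  Gf A m N L M → Mp A.Z (A.P.pow a) r → d ≤ r + 4 → Neg d (Tr T A.Z (T.c1 A.Z L)) →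
  P270H.Sm T A.Z (T.c1 A.Z L)

/-- ROW GF0: the pair on a log resolution -/
def GF0 : Prop := ∀ (n : ℕ) (V : Mf n) (Q : Rd V) (D : Bd V.X) (t : D.ι → V.X → ℂ) (q : ℕ)
  (C M : Bd V.X), Q.Ok → SubPair n Q.E Q.s D t q C → Eff n C → IsLB n M → P285N.Tp.Nf V M →
  Iso n Q.L (C.mul M) → Psef n C ∧
  ∃ (κ ι : Type) (_ : Fintype κ) (A : Pr n κ ι) (m : κ → ℤ) (N : ℕ) (π : A.Z.X → V.X)
    (S : Set V.X) (k : ℕ) (M' : Bd A.Z.X), Modif n π S ∧ 0 < k ∧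
    Gf A m N ((pull π Q.L).pow k) M' ∧ cls n A.P = k • cls n (pull π C)

/-- ROW FKE -/
def FKE : Prop := ∀ (w : ℕ) (W : Mf w) (B : Wp W), Wk B → NumEff w B.P → B.Fk

/-- ROW NED: a section upstairs gives a numerically effective class on the base -/
def NED : Prop := P270H.ForU fun T w e _ _ M _ C E => Eff (w + (e + 1)) C →
  ∀ (P : Bd M.Y.X) (z : ℕ), IsLB w P → T.c1 M.Y P = (z : ℝ) • T.c1 M.Y E → NumEff w P

/-- ROW MPU: the map on a model of the base -/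
def MPU : Prop := P270H.ForU fun T w _ V _ M _ C E => ∀ (r z : ℕ) (W : Mf w) (τ : W.X → M.Y.X)
  (S : Set M.Y.X) (hτ : Modif w τ S) (P : Bd W.X), Kp V C r → W.Prj → IsLB w P → 0 < z →
  T.c1 W P = (z : ℝ) • T.pull hτ.hol (T.c1 M.Y E) → ∃ a, Mp W (P.pow a) r

/-- ROW MP0: the map on a model of the total space -/
def MP0 : Prop := ∀ T : CT, T.OK → FLC T → ∀ (n r k : ℕ) (V Z : Mf n) (π : Z.X → V.X) (S : Set V.X)
  (C : Bd V.X) (P : Bd Z.X), Cp V → Z.Prj → Modif n π S → IsLB n C → IsLB n P → 0 < k →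
  cls n P = k • cls n (pull π C) → Kp V C r → ∃ a, Mp Z (P.pow a) r

/-- **KG** -/
def KG : Prop := ∀ (n d r : ℕ) (V : Mf n) (Q : Rd V) (D : Bd V.X) (t : D.ι → V.X → ℂ) (q : ℕ)
  (C M : Bd V.X), Q.Ok → SubPair n Q.E Q.s D t q C → IsLB n M → P285N.Tp.Nf V M →
  Iso n Q.L (C.mul M) → Kp V C r → n ≤ d + r + 4 →
  ¬ Neg n (P285W.Bs.Gd Co.ct V (Co.ct.c1 V Q.L) d) → NumSemiample n Q.L

end Vale.Agent.P270U
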