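import Vale.Agent.P270U.Defs
import Vale.Agent.P270F.Mg.Mm2
import Vale.Agent.P270G.Rfn
import Vale.Agent.P270G.Contr
import Vale.Agent.P270G.Hcg
import Vale.Agent.P270H.Psb
import Vale.Agent.P285S.Mp.Nvso
import Vale.Agent.P285S.Tp.Four
import Vale.Agent.P285N.Tp.Kodp

/-!
# P270U, row FIBD: the dichotomy on the fibres
-/

open Set Filter
open Vale.Agent.P272.K Vale.Agent.P285.H281.FD Vale.Agent.P281Z Vale.Agent.P280Z
open Vale.Agent.P277Z.Slc (lin IsDiv Snc)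
open Vale.Agent.P277.HD (pull)
open Vale.Agent.P277Z.GH.Of (exists_cmp)
open Vale.Agent.P285N Vale.Agent.P285S
open Vale.Agent.P285S.Mm.Gp (In)
open Vale.Agent.P285S.Mm.RefH (sum_par)
open Vale.Agent.P285S.Mm.Ps.Nvso (eff_iff cls_mon ef_cls ef_mon)
open Vale.Agent.P285S.Tp (ef_add ef_smul ef_pull dense_nz')
open Vale.Agent.P285T.Cb.Wpr (ex_cls ex_cp)

namespace Vale.Agent.P270U

namespace FibdH

variable {d : ℕ} {κ ι : Type} [Fintype κ] {A : Pr d κ ι} {m : κ → ℤ}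

theorem hc {H L : Bd A.Z.X} (lb : IsLB d A.P) (sn : Snc d A.G) (h : Xc.Good A m H L) : HC A m := by
  obtain ⟨hN, C, hC⟩ := h
  intro i s hs
  obtain ⟨j, hj⟩ := Xc.polW_of hs
  obtain ⟨R, hR⟩ : ∃ R : ℕ, R = 2 * C * (Finset.univ.sup fun l => (-m l).toNat) + 1 := ⟨_, rfl⟩
  have R1 : (0 : ℝ) < R := Nat.cast_pos.2 (hR ▸ Nat.succ_pos _)
  have lP := lb_pow lb i
  have l1 := lb_mul hN.lbH (lb_pow hN.lbL (R * i))
  have l2 := lb_mul l1 (lb_zp lb (-(R * i : ℕ)))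
  have c2 : cls d ((H.mul (L.pow (R * i))).mul (zp A.P (-(R * i : ℕ)))) =
      cls d H + 0 • cls d L + (R * i) • (cls d L - cls d A.P) := by
    rw [cls_mul l1 (lb_zp lb _), cls_mul hN.lbH (lb_pow hN.lbL _), cls_pow hN.lbL, cls_zp lb,
      neg_smul, natCast_zsmul, smul_sub, zero_smul]
    abel
  obtain ⟨r, r0, hr⟩ := P285W.J.ScaleX.ex_bpf l2 (hN.pos 0 (R * i) _ l2 c2)
  have h2 : SecP d d id univ (A.P.pow i) A.G (fun l => ((2 * C * (-m l).toNat : ℕ) : ℝ) / R) s := by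
    refine ⟨hj.hol, hj.chg, fun a x hx ha => ?_⟩
    obtain ⟨u, u1, u2⟩ := hr x
    obtain ⟨q, hq⟩ := l2.cover x
    have h1 := hC r (r * (R * i)) (r * R * j) _ _ (lb_mul (lb_pow lP (r * R)) (lb_pow l2 r)) (by
      rw [cls_mul (lb_pow lP _) (lb_pow l2 r), cls_pow lP, cls_pow lb, cls_pow l2, c2, zero_smul,
        add_zero, mul_smul, mul_smul r, ← mul_smul R, ← smul_add, ← smul_add, smul_sub]
      refine congrArg _ ?_
      abel) (((hj.pow continuous_id (r * R)).mul continuous_id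
      (secP_of_sec (c := fun _ => 0) continuous_id u1 fun _ => le_rfl)).mono continuous_id
      fun l => by rw [add_zero, ← Nat.cast_mul, mul_assoc (r * R)])
    refine BdP.of_pow (Nat.mul_pos r0 (Nat.cast_pos.1 R1)) ((((h1.bdP (a := (a, q)) trivial
      ⟨ha, hq⟩).cmul ((sec_hol u1 hq).inv (u2 q hq)).cont).congr ?_).mono continuousAt_id
        fun l _ => ?_)
    · filter_upwards [(sec_hol u1 hq).ne_near (u2 q hq)] with y k1 _
      rw [mul_comm (s a y ^ (r * R)), inv_mul_cancel_left₀ k1]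
    · rw [Nat.cast_mul r, mul_assoc (r : ℝ), mul_div_cancel₀ _ R1.ne', ← Nat.cast_mul, Nat.cast_le,
        ← mul_assoc]
      exact Nat.mul_le_mul_right _ ((Nat.mul_le_mul_left C (show r + 1 ≤ 2 * r by omega)).trans_eq
        (by ring))
  simpa using h2.floor (k := 0) sn lP isOpen_univ fun l => by
    rw [div_lt_iff₀ R1, Pi.zero_apply, Int.cast_zero, zero_add, one_mul, hR]
    exact_mod_cast Nat.lt_succ_of_le (Nat.mul_le_mul_left (2 * C)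
      (Finset.le_sup (f := fun l => (-m l).toNat) (Finset.mem_univ l)))

theorem untw (lb : IsLB d A.P) (sn : Snc d A.G) {Φ : κ → ℕ} (hH : HC A fun l => -(Φ l : ℤ))
    {O : κ → Bd A.Z.X} {σ : ∀ l, (O l).ι → A.Z.X → ℂ} (hO : ∀ l, IsDiv d (A.G l) (O l) (σ l))
    {a : ℕ} (h : Ef A.Z (a • (cls d A.P + ∑ l, Φ l • cls d (O l)))) : Ef A.Z (a • cls d A.P) := by
  have lO := fun l => (hO l).lb
  have hE := lb_lin lO fun l => ((a * Φ l : ℕ) : ℤ)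
  have l3 := lb_pow lb a
  obtain ⟨s, x, s1, s2⟩ := ef_cls (lb_mul l3 hE) (by
    rw [cls_mul l3 hE, cls_pow lb, cls_mon hO]
    simpa only [smul_add, Finset.smul_sum, smul_smul] using h)
  obtain ⟨⟨b, c⟩, hx⟩ := (lb_mul l3 hE).cover x
  obtain ⟨v, v1, v2⟩ := SecP.untwist (i := id) (c := fun _ => 0) holM_id hO l3 isOpen_univ
    (secP_of_sec continuous_id s1 fun _ => le_rfl)
  obtain ⟨w, w1, w2⟩ := (hH a v (Xc.PolW.pol (j := a) (v1.mono continuous_id fun l => by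
    rw [zero_add, Int.cast_natCast, neg_neg, Int.toNat_natCast]))).isSec sn l3 fun _ => one_pos
  obtain ⟨y, y1, y2, y3⟩ := (((Hyp.of_div hO).freq x).and_eventually
    ((lb_near (lb_mul l3 hE) hx).and ((sec_hol s1 hx).ne_near (s2 _ hx)))).exists
  exact cls_pow lb a ▸ Mm.ef_of l3 w1 ⟨b, y, y2.1, fun k => y3
    ((v2 b c y trivial y2.1 y2.2 y1).trans (by rw [← w2 b y y2.1 y1, k, zero_mul]))⟩

variable {Y Z : Mf d} {π : Y.X → Z.X} {S : Set Z.X}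

theorem ef_down (hπ : Modif d π S) {β : Pic d Z.X} (h : Ef Y (hπ.hol.pic β)) : Ef Z β := by
  obtain ⟨B, lB, rfl⟩ := ex_cls β
  obtain ⟨s, y, s1, s2⟩ := ef_cls (hπ.hol.lb lB) (cls_pull hπ.hol lB ▸ h)
  obtain ⟨u, u1, u2⟩ := P285S.Tp.desc hπ lB s1
  exact ⟨B, u, lB, rfl, u1, π y, fun a ha => u2 a y ha ▸ s2 a ha⟩

/-- big classes go down, up to a flat twist -/
theorem big_down {T : CT} (hT : T.OK) (hπ : Modif d π S) [ConnectedSpace Y.X] (pY : Y.Prj)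
    (pZ : Z.Prj) {c : Pic d Y.X →+ T.H Y} (k : ∀ L, IsLB d L → c (cls d L) = T.c1 Y L)
    {p e : Pic d Y.X} {β : Pic d Z.X} {z : ℕ} (z0 : 0 < z) (hp : Big Y p) (he : Ef Y e)
    (h : c (z • hπ.hol.pic β - e) = c p) : Big Z β := by
  intro H lH
  have := hπ.connX
  obtain ⟨A, lA, pA⟩ := pZ
  obtain ⟨H', lH', pH'⟩ := pY
  obtain ⟨a, a0, ha⟩ := P270H.PsbH.ef_kc hT lA (hT.c1.pos Z A lA pA)
  have l1 := lb_pow lA a
  have l2 := lb_zp (hπ.hol.lb lH) (-1)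
  obtain ⟨b, s, s1, s2⟩ := P285N.Tp.kodp d Z Y π S _ _ inferInstance hπ l1 (hT.kp Z _ l1 (by
    rw [hT.c1.pow Z A a lA]
    exact hT.po.smul _ (Nat.cast_pos.2 a0) (hT.c1.pos Z A lA pA))) l2
  have l3 := lb_pow (hπ.hol.lb l1) b
  have e1 := Mm.ef_of (lb_mul l3 l2) s1 s2
  obtain ⟨j, j0, e2⟩ := hp _ (lb_mul l3 lH')
  obtain ⟨R, lR, cR⟩ := ex_cls (j • (z • hπ.hol.pic β - e - p) + cls d H')
  obtain ⟨r, r0, e3⟩ := P270H.PsbH.ef_kc hT lR (by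
    rw [← k _ lR, cR, map_add, map_nsmul, map_sub, h, sub_self, smul_zero, zero_add, k _ lH']
    exact hT.c1.pos Y H' lH' pH')
  obtain ⟨r, rfl⟩ : ∃ r', r = r' + 1 := ⟨r - 1, by omega⟩
  refine ⟨(r + 1) * (j * z), by positivity, ef_down hπ ?_⟩
  have e4 := ef_add (ef_add (ef_add (ef_smul e2 (r + 1)) e3) (ef_smul he ((r + 1) * j)))
    (ef_add (ef_smul (ef_pull hπ ha) (r * b)) e1)
  rw [cR, cls_mul l3 lH', cls_mul l3 l2, cls_pow (hπ.hol.lb l1), cls_zp (hπ.hol.lb lH),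
    cls_pull hπ.hol l1, cls_pull hπ.hol lH, cls_pow lA] at e4
  refine (congrArg _ ?_).mp e4
  rw [map_sub, map_nsmul hπ.hol.pic ((r + 1) * (j * z))]
  module

end FibdH

open FibdH

theorem fibd_of (hZ : P270F.Mg.ZC) (hS : SMD) (hG : P270H.GAG)
    (hV : ∀ d ≤ 4, Mm.Ps.NVS d) : FIBD := by
  classical
  intro d hd T hT κ ι _ A m N hF L M O σ φ hA hm hO lL lM nL nM cl ps
  obtain ⟨a, a0, ha⟩ := (eff_iff hA.lb).1 (hV d hd κ ι A m N hA (fun l => (hm l).1)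
    (eq_empty_of_forall_notMem fun y ⟨l, e, _⟩ => (hm l).2.ne e) ps)
  have hs := P277Z.Cls.isSnc_of hA.snc
  obtain ⟨r, G', par, h⟩ := exists_cmp hs
  have hs' := P277Z.Slc.snc_of_isSnc (h.snc hs)
  choose O' σ' hO' using fun j => P277Z.Slc.stDiv d A.Z.X (G' j) fun x =>
    let ⟨ζ, k, _⟩ := hs' x; ⟨ζ j, k j⟩
  obtain ⟨Ω, h2⟩ := Mm.mkpr d (Fin r) A.Z G' O' σ' A.P (fun j => m (par j)) N
    hA.conn hA.prj hs' hO' hA.lb hA.pos hA.even (fun j => hA.le _)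
    (by rw [Xc.cls_eq d _ _ m N A O σ hA hO, sum_par h hO hO'])
  have lQ := lb_mul hA.lb lM
  have cQ := cls_mul hA.lb lM
  have hI : In ⟨A.Z, G', A.P.U, A.P.g, Ω⟩ _ _ O' σ' (fun j => φ (par j)) 1 L (A.P.mul M) :=
    ⟨h2, fun j => (hm _).1, hO', lL, nL, one_pos, by
      rw [one_smul, cQ, cl]
      exact congrArg _ (by simpa only [natCast_zsmul] using sum_par h hO hO' fun l => φ l),
      lQ, M, lM, nM, cQ⟩
  obtain ⟨H, lH, pH⟩ := id hA.prj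
  obtain ⟨R, Ψ, ok, -, gr, cn'⟩ := hZ d hd _ _ _ _ _ _ _ _ 1 _ _ hI h.conn H lH pH
  obtain ⟨Λ, H', l1, l2, l3, l4, l5, l6⟩ := gr.rig
  obtain ⟨H₀, g, C, fp⟩ := gr.gd
  have hπ := ok.md.hol
  have lM' := hπ.lb lM
  have eP : cls d R.B.P + ∑ l, R.Φ l • cls d (R.O l) = R.δ • hπ.pic (cls d A.P) := by
    rw [ok.cl, sub_add_cancel]
    exact congrArg _ (cls_pull hπ hA.lb)
  have eM : cls d R.Q = cls d R.B.P + cls d ((pull R.π M).pow R.δ) := by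
    rw [ok.clQ, eq_sub_of_add_eq eP, cls_pow lM', cls_pull hπ lQ, cls_pull hπ lM, cQ, map_add,
      smul_add]
    abel
  have := ok.ok.conn
  have nQ : Tp.Nf R.B.Z R.Q := Tp.nf_of g.lbH g.lbL fun i M hM e => g.pos i 0 M hM (by simpa using e)
  have l7 := lb_pow lM' R.δ
  have nM' := Tp.F4.nf_pw lM' (Tp.nf_comp hπ hA.prj lM nM) R.δ
  obtain ⟨W, c, lW, pW, fW⟩ := P270G.topb d T hT _ _ R.B R.m R.N _ _ Λ R.Q ok.ok
    ⟨l1, l2, H', l3, l4, l5⟩ ok.lbQ l6 fun _ k => k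
  have e1 := untw ok.ok.lb ok.ok.snc (hc ok.ok.lb ok.ok.snc ⟨⟨lW, ok.lbQ, fun i j B lB e => by
    have l2 := lb_mul (lb_pow ok.lbQ i) lW
    refine Xc.piso d _ _ _ (lb_mul (lb_pow l7 j) l2) lB ?_ (nM' _ l2 (nQ W lW pW i) j)
    rw [e, cls_mul (lb_pow l7 _) l2, cls_mul (lb_pow ok.lbQ _) lW, cls_pow l7, cls_pow ok.lbQ,
      ← sub_eq_iff_eq_add'.2 eM]
    abel⟩, c, fW⟩) ok.div (a := a) (by
      rw [eP, smul_comm, ← map_nsmul]
      exact ef_smul (ef_pull ok.md ha) _)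
  obtain ⟨Y, τ, S, hτ, P, z, pY, lP, sP, z0, cP⟩ := hG d hd T hT _ _ R.B R.m R.N hF R.Q _
    ⟨⟨ok.ok, fun l => (ok.ok.le l).lt_of_ne fun e => by
      obtain ⟨y, hy⟩ := (cn' l).nonempty
      obtain ⟨k, k1, -⟩ := ok.up l e y hy
      exact (hm _).2.ne k1, ok.lbQ, nQ, l7, nM', eM⟩,
      ⟨0, fun k => ⟨a, a0, by
        rw [add_zero, smul_comm]
        exact ef_smul e1 k⟩⟩, H₀, C, g.lbH, g.pos 0 0 _ g.lbH (by simp), fp⟩
  have hρ := ok.md.comp rem hτ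
  have := hτ.conn
  obtain ⟨cY, kY⟩ := ex_cp hT Y
  have pc : ∀ B, IsLB d B → hρ.hol.pic (cls d B) = hτ.hol.pic (cls d (pull R.π B)) := fun B lB =>
    (cls_pull hρ.hol lB).symm.trans (cls_pull hτ.hol (hπ.lb lB))
  have cP' : T.c1 Y P = cY (z • hτ.hol.pic (cls d R.Q)) := by
    rw [cP, map_nsmul, ← cls_pull hτ.hol ok.lbQ, kY _ (hτ.hol.lb ok.lbQ),
      hT.c1.pull hτ.hol _ ok.lbQ, Nat.cast_smul_eq_nsmul]
  obtain ⟨D, t, d1, d2, d3, d4⟩ := ef_smul (ef_pull hτ (ef_mon ok.div R.φ)) z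
  refine (hS T hT d Y A.Z _ _ hρ P L ((z * R.δ : ℕ) : ℝ) _ ⟨hA.conn, hA.prj⟩ pY lP sP lL nL
    (Nat.cast_pos.2 (Nat.mul_pos z0 ok.pos)) ⟨D, t, d1, d3, dense_nz' d1 d3 d4, rfl⟩ ?_).imp_left
    fun k => big_down hT hρ pY hA.prj kY (Nat.mul_pos z0 ok.pos) k
      (ef_smul (ef_pull hτ (ef_mon ok.div R.Φ)) z) ?_
  · rw [cP', ← kY _ d1, d2, ← hT.c1.pull hρ.hol _ lL, ← kY _ (hρ.hol.lb lL), cls_pull hρ.hol lL,
      pc L lL, Nat.cast_smul_eq_nsmul, ← map_nsmul cY, ← map_add, mul_smul, ← smul_add,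
      ← map_nsmul _ R.δ, ← map_add, ← ok.eff, one_smul]
  · rw [kY _ lP, cP', ← cQ, pc _ lQ, mul_smul, ← smul_sub, ← map_nsmul _ R.δ, ← map_sub, ← ok.clQ]

end Vale.Agent.P270U
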