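import Vale.Agent.P270U.Defs
import Vale.Agent.P270G.Cov
import Vale.Agent.P285S.Ca.Efa
import Vale.Agent.P285W.J.Kod
import Vale.Agent.P285W.J.Cuts
import Vale.Agent.P285W.J.Surj
import Vale.Agent.P285W.J.Top
import Vale.Agent.P285W.Ct.Cmp

/-!
# P270U: semiample bundles are big or trivial on a covering family of curves
-/

open Set Function
open Vale.Agent.P272.K Vale.Agent.P285.H281.FD Vale.Agent.P281Z Vale.Agent.P280Z
open Vale.Agent.P285N Vale.Agent.P285W Vale.Agent.P285W.J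

noncomputable section

namespace Vale.Agent.P270U

namespace SmdH

variable {T : CT} {d : ℕ} {Y : Mf d}

/-- a free class without trivial curves has a positive volume -/
theorem vol (hT : T.OK) (cY : ConnectedSpace Y.X) (pY : Y.Prj) {l : T.H Y} {k : ℝ} (hk : 0 < k)
    (hg : Bf T Y (k • l)) (hN : Neg d (Tr T Y l)) : 0 < T.int Y ((k • l) ^ d) := by
  obtain ⟨-, a, ka, ba⟩ := negl.kah d Y pY T hT
  have nl : Nf T Y l := by
    have := nf_smul hT (inv_pos.2 hk).le (bf_nf hT hg)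
    rwa [smul_smul, inv_mul_cancel₀ hk.ne', one_smul] at this
  refine (?_ : ∀ j r, j + r = d → 0 < T.int Y ((k • l) ^ j * a ^ r)) d 0 rfl |>.trans_eq
    (by rw [pow_zero, mul_one])
  intro j
  induction j with
  | zero => exact fun r hr => by rw [pow_zero, one_mul, ← zero_add r, hr]; exact kc_pos hT ka
  | succ j ih =>
    intro r hr
    refine (mn_int hT (mb_mn hT ((mb_pow hg _).mul (mb_pow ba r)))).lt_of_ne' fun h0 => ?_
    have h1 := nt_of (cuts_of Ct.cut) T hT d Y l a nl (hT.po.deg ka) d (j + r) Y _ holM_id _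
      (by omega) cY hN ((mb_pow hg j).mul (mb_pow ba r)) (by
        rw [pow_succ', mul_assoc, smul_mul_assoc, map_smul] at h0
        rw [hT.rg.pull_id]
        exact (smul_eq_zero.1 h0).resolve_left hk.ne')
    rw [hT.rg.pull_id, mul_left_comm, ← pow_succ'] at h1
    exact (ih (r + 1) (by omega)).ne' h1

/-- the lemma of Kodaira -/
theorem kd (hT : T.OK) (cY : ConnectedSpace Y.X) (pY : Y.Prj) {g : T.H Y} (hg : Bf T Y g)
    (h0 : 0 < T.int Y (g ^ d)) : ∃ (m : ℕ) (e : T.H Y), Ef T Y e ∧ T.Kc Y ((m : ℝ) • g - e) := by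
  rcases d with _ | d
  · obtain ⟨-, a, ka, -⟩ := negl.kah _ Y pY T hT
    refine ⟨0, 0, ef_zero hT, ?_⟩
    rw [dg_zero hT (hT.po.deg ka) one_pos] at ka
    simpa using ka
  · obtain ⟨h, m, h1, -, h2⟩ := kod T hT d Y g cY pY hg h0
    exact ⟨m, _, h2, by rwa [sub_sub_cancel]⟩

end SmdH

/-- **row SMD** -/
theorem smd : SMD := by
  intro T hT d Y Z π S hπ P L c e cZ pY lP ⟨k, k0, hb⟩ lL nL c0 he hc
  refine or_iff_not_imp_right.2 fun hN H lH => ?_
  have := cZ.conn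
  have cY : ConnectedSpace Y.X := hπ.conn
  have h1 := P270G.nuu.te T hT d Y _ e c (nf_pull hT hπ.hol (nf_of hT cZ.prj lL nL)) c0 he
    (P270G.nuu.tr T hT d Z Y π S hπ _ (not_not.1 hN))
  have hg : Bf T Y ((k : ℝ) • T.c1 Y P) := ⟨_, lb_pow lP k, hb, hT.c1.pow Y P k lP⟩
  obtain ⟨m, _, ⟨D, s, lD, hs, s0, rfl⟩, h2⟩ := SmdH.kd hT cY pY hg
    (SmdH.vol hT cY pY (Nat.cast_pos.2 k0) hg (hc ▸ h1))
  have l1 := lb_zp lD (-(1 : ℕ))
  have l2 := lb_mul (lb_pow lP (m * k)) l1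
  obtain ⟨-, a1, a2, -, a3⟩ := P285S.Ca.efa d Y cY
  obtain ⟨r, -, h3⟩ := a3 _ (-cls d H) l2 (hT.kp Y _ l2 (by
    rwa [hT.c1.mul Y _ _ (lb_pow lP _) l1, hT.c1.pow Y P _ lP, c1_zp hT lD, Nat.cast_one, one_smul,
      Nat.cast_mul, mul_smul, ← sub_eq_add_neg]))
  obtain ⟨y⟩ := cY.toNonempty
  obtain ⟨t, t1, t2⟩ := hb y
  refine ⟨r * (m * k) + k, by positivity, (congrArg (P285S.Ef Y) ?_).mp (a1 _ _ (a1 _ _ h3
    (a2 _ r ⟨D, s, lD, rfl, hs, s0.nonempty⟩)) ⟨_, t, lb_pow lP k, cls_pow lP k, t1, y, t2⟩)⟩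
  rw [cls_mul (lb_pow lP _) l1, cls_pow lP, cls_zp lD]
  module

end Vale.Agent.P270U
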