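import Vale.Agent.P270U.Defs
import Vale.Agent.P285S.Ex.Two
import Vale.Agent.P285S.Tp.Thr

/-!
# P270U: the map on a model of the total space (row MP0)
-/

open scoped Topology
open Set Filter Function
open Vale.Agent.P272.K Vale.Agent.P285.H281.FD Vale.Agent.P281Z Vale.Agent.P280Z
open Vale.Agent.P277.HD (pull)
open Vale.Agent.P285S (Ef Pse)

namespace Vale.Agent.P270U

namespace Mp0H

variable {n r : ℕ} {V Z : Mf n} {π : Z.X → V.X} {S : Set V.X} {B : Bd V.X}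
  {s : Fin (r + 1) → B.ι → V.X → ℂ}

/-- the rank does not change on a model -/
theorem rk_pull (hπ : Modif n π S) (hB : IsLB n B) (hs : ∀ b, IsSec n B (s b))
    (h : Rk n univ B s) : Rk n univ (pull π B) fun b i z => s b i (π z) := by
  obtain ⟨x, -, a, ha, h0, h1⟩ := h
  have k : ∀ᶠ y in 𝓝 x, y ∈ B.U a ∧ s 0 a y ≠ 0 ∧
      P277Z.Slc.Ind n (fun (b : Fin r) y => s b.succ a y / s 0 a y) y :=
    (hB.isOpen a).eventually_mem ha |>.and <|
      ((sec_hol (hs 0) ha).cont.eventually_ne h0).and h1.near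
  obtain ⟨y, ⟨y1, y2, y3⟩, y4⟩ := mem_closure_iff_nhds.1 (hπ.thin.2 x) _ k
  obtain ⟨z, rfl⟩ := hπ.surj y
  exact ⟨z, trivial, a, y1, y2, (hπ.sbm y4).ind (hπ.hol.at z) y3⟩

end Mp0H

theorem mp0_of (h1 : MPA) : MP0 := by
  intro T _ _ n r k V Z π S C P hV hZ hπ hC hP hk hc ⟨j, s, hj, s1, s2⟩
  have := hV.conn
  have cZ := hπ.conn
  have hB := lb_pow hC j
  have pB := hπ.hol.lb hB
  have r2 := Mp0H.rk_pull hπ hB s1 s2
  obtain ⟨X₁, u, S₁, Q, γ, a1, a2, a3, a4, a5⟩ :=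
    h1 n r Z (pull π (C.pow j)) _ ⟨cZ, hZ⟩ pB (fun b => hπ.hol.sec (s1 b)) r2
  have c1 := a1.conn
  have e0 : Ef Z (cls n (pull π (C.pow j))) := by
    obtain ⟨x, -, a, ha, h0, -⟩ := r2
    have q := hπ.hol.sec (s1 0)
    exact ⟨_, _, pB, rfl, q, x, (nz_iff pB (fun a b => q.change a b x) ha).2 h0⟩
  have e1 := P285S.Tp.ef_add (P285S.Tp.ef_smul (P285S.Tp.ef_pull a1 e0) (k - 1)) a5
  refine ⟨j, X₁, u, S₁, a1, a2, Q.P, Q.H, γ, Q.conn, Q.lb, Q.pos, a3, a4, P285S.Ef.pse ?_⟩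
  have e2 : cls n (P.pow j) = k • cls n (pull π (C.pow j)) := by
    rw [cls_pow hP, hc, cls_pull hπ.hol hB, cls_pull hπ.hol hC, cls_pow hC, map_nsmul, smul_comm]
  rw [cls_pull a1.hol (lb_pow hP j), e2, map_nsmul]
  rw [cls_pull a1.hol pB, ← add_sub_assoc, ← succ_nsmul, Nat.sub_add_cancel hk] at e1
  exact e1

end Vale.Agent.P270U
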