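import Vale.Agent.P270U.Defs
import Vale.Agent.P270H.Psb
import Vale.Agent.P285T.Cb.Hlp
import Vale.Agent.P285T.Cb.Wpr
import Vale.Agent.P285S.Ca.Efa

/-!
# P270U: the map descends (row MPB)
-/

open scoped Topology
open Set Filter Function
open Vale.Agent.P272.K Vale.Agent.P285.H281.FD Vale.Agent.P281Z Vale.Agent.P280Z
open Vale.Agent.P277.HD (pull)
open Vale.Agent.P285W.J Vale.Agent.P285T.Cb Vale.Agent.P285S.Ca

noncomputable section

namespace Vale.Agent.P270U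

namespace Mp97

variable {T : CT} {d r : ℕ} {F : Mf d}

theorem zero [ConnectedSpace F.X] (hT : T.OK) (hK : F.Kah) {B : Bd F.X} (hB : IsLB d B)
    {σ : B.ι → F.X → ℂ} (hσ : IsSec d B σ) (h0 : Ef T F (-T.c1 F B)) {a b : B.ι} {x y : F.X}
    (ha : x ∈ B.U a) (hb : y ∈ B.U b) (h : σ a x = 0) : σ b y = 0 := by
  by_contra k
  have hd := KodA.dense_nz hB hσ hb k
  cases d with
  | zero =>
    have : DiscreteTopology F.X := ChartedSpace.discreteTopology (Cm 0) F.X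
    exact eq_univ_iff_forall.1 (dense_discrete.1 hd) x a ha h
  | succ d =>
    obtain ⟨w, hw⟩ := (hT.po.kah F).1 hK
    have k1 := (hT.eff F B σ d (fun _ => w) rfl hB hσ hd fun _ => kc_nn hT hw).2
      (fun _ => hw) ⟨x, fun c => c a ha h⟩
    have k2 := ef_int hT h0 ((kc_nf hT hw).mn.pow d)
    rw [Finset.prod_const, Finset.card_fin] at k1
    rw [neg_mul, map_neg, Left.nonneg_neg_iff] at k2
    exact k2.not_gt k1

theorem cst [ConnectedSpace F.X] (hT : T.OK) (hK : F.Kah) (P : PS r) {g : F.X → P.P.X}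
    (hg : HolM d r g) (h0 : Ef T F (-T.c1 F (pull g P.H))) (x y : F.X) : g x = g y := by
  obtain ⟨k, hk⟩ := P.lb.cover (g x)
  obtain ⟨j, hj⟩ := P.lb.cover (g y)
  rw [← P.pt_x' hk, ← P.pt_x' hj, P.pt_eq_iff' (P.xnz _ _ hk) (P.xnz _ _ hj)]
  intro a b
  have sa := hg.sec (P.sec a)
  have sb := hg.sec (P.sec b)
  exact sub_eq_zero.1 (zero hT hK (hg.lb P.lb)
    (σ := fun i z => P.x k (g x) a * P.x i (g z) b - P.x k (g x) b * P.x i (g z) a)
    ⟨fun i e z he hi => (contDiffAt_const.mul (sb.holo i e z he hi)).sub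
      (contDiffAt_const.mul (sa.holo i e z he hi)), fun i i' z hi hi' => by
        rw [sa.change i i' _ hi hi', sb.change i i' _ hi hi']
        ring⟩ h0 (a := k) (x := x) hk hj (sub_eq_zero.2 (mul_comm _ _)))

end Mp97

theorem mpbb : MPB := by
  intro T hT _ n w r c X W f hf B E P γ cX cW lB lE c0 e hγ sγ ⟨D, s, d1, d2, d3, x₀, d4⟩
  have := cX.conn
  have := cW.conn
  have hh := hf.hol
  have lH := hγ.lb P.lb
  obtain ⟨cx, ex⟩ := Wpr.ex_cp hT X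
  have c1 := congrArg cx d2
  rw [map_sub, ex _ d1, ex _ lB, ex _ lH] at c1
  have sn : P277Z.Slc.Snc n (Empty.elim : Empty → Set X.X) := fun _ =>
    ⟨Empty.elim, fun l => l.elim, fun l => l.1.elim, fun _ _ => linearIndependent_empty_type⟩
  obtain ⟨Q₀, q0, rg⟩ := genS n w X W f _ _ hh sn
  obtain ⟨Q₁, q1, cn⟩ := hf.conn
  have hQ := q0.union q1
  have sb : ∀ x, f x ∉ Q₀ ∪ Q₁ → Sbm n w f x := fun x hx =>
    (rg _ fun k => hx (.inl k)).sbm hh sn rfl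
  have k1 : ∀ z, NZ D s z → f z ∉ Q₀ ∪ Q₁ → ∀ x x', f x = f z → f x' = f z → γ x = γ x' := by
    intro z hz hq x x' hx hx'
    obtain ⟨d, hd⟩ := Nat.exists_eq_add_of_le (sb z hq).le
    obtain ⟨F, i, hi, -⟩ := (rg _ fun k => hq (.inl k)).fib hd hh sn
    have := hi.conn.2 (cn _ fun k => hq (.inr k))
    obtain ⟨y, rfl⟩ := hi.ex (y := x) hx
    obtain ⟨y', rfl⟩ := hi.ex (y := x') hx'
    obtain ⟨u, rfl⟩ := hi.ex (y := z) rfl
    obtain ⟨a, ha⟩ := d1.cover (i u)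
    have h1 := hi.hol
    have k := CutsH.pull_const hT (hh.comp h1) (fun a b => (hi.fib a).trans (hi.fib b).symm)
      (hT.c1.deg W E)
    rw [hT.rg.pull_comp h1 hh _ fun _ => rfl, e, map_smul,
      smul_eq_zero_iff_right (Nat.cast_ne_zero.2 c0.ne')] at k
    refine Mp97.cst hT (hi.kah cX.prj.kah) P (hγ.comp h1) ⟨_, _, h1.lb d1, h1.sec d3,
      KodA.dense_nz (h1.lb d1) (h1.sec d3) (a := a) ha (hz a ha), ?_⟩ y y'
    rw [hT.c1.pull h1 _ d1, c1, map_sub, k, zero_sub, ← hT.c1.pull h1 _ lH]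
    rfl
  obtain ⟨a₀, ha₀⟩ := d1.cover x₀
  have dn := KodA.dense_nz d1 d3 ha₀ (d4 _ ha₀)
  have k2 : ∀ x x', f x ∉ Q₀ ∪ Q₁ → f x' = f x → γ x' = γ x := by
    intro x x' hq hx
    obtain ⟨g, g1, g2, g3⟩ := (sb x hq).sec (hh.at x)
    obtain ⟨g', g1', g2', g3'⟩ := (sb x' (hx ▸ hq)).sec (hh.at x')
    rw [hx] at g1' g2' g3'
    have fr : ∃ᶠ z in 𝓝 x, γ (g' (f z)) = γ (g (f z)) :=
      ((mem_closure_iff_frequently.1 (dn x)).and_eventually ((hh.cont.tendsto x).eventually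
        (g3.and (g3'.and (hQ.closed.isOpen_compl.mem_nhds hq))))).mono fun z k =>
          k1 z k.1 k.2.2.2 _ _ k.2.2.1 k.2.1
    have t1 := (hγ.cont.continuousAt.comp g2.cont).tendsto.comp (hh.cont.tendsto x)
    have t2 := (hγ.cont.continuousAt.comp g2'.cont).tendsto.comp (hh.cont.tendsto x)
    have := tendsto_nhds_unique_of_frequently_eq t2 t1 fr
    simpa only [comp_apply, g1, g1'] using this
  have k3 : ∀ x, f x ∉ Q₀ ∪ Q₁ → γ (surjInv hf.surj (f x)) = γ x := fun x hx =>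
    k2 x _ hx (surjInv_eq _ _)
  obtain ⟨V, μ, g, _, _, hμ, hg, m1, -, -, pV⟩ := mgrp (V := W) (Y := P.P)
    (φ := fun y => γ (surjInv hf.surj y)) (A := (fun x => W.pair P.P (f x) (γ x)) '' univ) hQ
    (fun y hy => by
      obtain ⟨x, rfl⟩ := hf.surj y
      exact (sb x hy).desc (hh.at x) ((hγ.at x).cng (((hh.cont.tendsto x).eventually
        (hQ.closed.isOpen_compl.mem_nhds hy)).mono fun z hz => (k3 z hz).symm)))
    (rem _ _ _ _ _ _ (hh.pair hγ) an_univ) fun y hy z => ⟨fun ⟨x, _, k⟩ => by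
      obtain ⟨rfl, rfl⟩ := pair_inj.1 k
      exact k3 x hy, fun k => ⟨_, trivial, pair_inj.2 ⟨surjInv_eq _ _, k⟩⟩⟩
  have pV := pV cW.prj P.prj
  have tq := hQ.pre_surj hh hf.surj
  obtain ⟨X', u, f', hu, hf', cm, -, pX⟩ := graphp X W V f μ _ hh tq.2 hμ
  have e1 : (fun x => g (f' x)) = fun x => γ (u x) := Continuous.ext_on hu.thin_pre.2
    (hg.cont.comp hf'.cont) (hγ.cont.comp hu.hol.cont) fun x hx => by
      obtain ⟨z, -, k⟩ := m1 (f' x)
      obtain ⟨k, k'⟩ := pair_inj.1 k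
      exact k'.symm.trans (k2 _ _ hx (k.trans (cm x).symm))
  have s1 : Surjective f' := by
    rw [← range_eq_univ, ← (isCompact_range hf'.cont).isClosed.closure_eq]
    refine Dense.closure_eq (hμ.thin_pre.2.mono fun v hv => ?_)
    obtain ⟨x, hx⟩ := (hf.surj.comp hu.surj) (μ v)
    exact ⟨x, hμ.inj hv ((cm x).symm.trans hx)⟩
  have := hu.conn
  have := hμ.conn
  obtain ⟨E', lE', eE⟩ := Wpr.ex_cls (cls w (pull μ E) - cls w (pull g P.H))
  obtain ⟨P', lP', eP⟩ := Wpr.ex_cls (c • cls n D + (c - 1) • cls n (pull γ P.H))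
  obtain ⟨-, e2, e3, -⟩ := efa n X cX.conn
  obtain ⟨-, -, e4, -⟩ := efa n X' inferInstance
  obtain ⟨j, hj⟩ := P.lb.cover (γ x₀)
  obtain ⟨b, hb⟩ := ne_iff.1 (P.xnz _ _ hj)
  obtain ⟨N, t, n1, n2, n3, z, n4⟩ := e2 _ _ (e3 _ c ⟨D, s, d1, rfl, d3, x₀, d4⟩)
    (e3 _ (c - 1) ⟨_, _, lH, rfl, hγ.sec (P.sec b), x₀,
      (nz_iff lH (fun a a' => (hγ.sec (P.sec b)).change a a' x₀) (a := j) hj).2 hb⟩)
  obtain ⟨z, rfl⟩ := hu.surj z
  refine ⟨V, μ, _, hμ, pV, P.P, P.H, g, P.conn, P.lb, P.pos, hg,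
    .of_comp (g := f') (by rw [comp_def, e1]; exact sγ.comp hu.surj), eE ▸ P270H.psb T hT n w X' V
      f' hf' (pull u N) E' 1 ⟨inferInstance, pX cX.prj pV⟩ ⟨inferInstance, pV⟩ s1 (hu.hol.lb n1) lE'
      ?_ ⟨0, fun k => ⟨1, one_pos, ?_⟩⟩⟩
  · obtain ⟨cv, ev⟩ := Wpr.ex_cp hT V
    have c2 := congrArg cv eE
    have c3 := congrArg cx n2
    rw [map_sub, ev _ lE', ev _ (hμ.hol.lb lE), ev _ (hg.lb P.lb), hT.c1.pull hμ.hol _ lE,
      hT.c1.pull hg _ P.lb] at c2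
    rw [map_add, map_nsmul, map_nsmul, ex _ n1, ex _ d1, ex _ lH, c1, hT.c1.pull hγ _ P.lb,
      ← Nat.cast_smul_eq_nsmul ℝ, ← Nat.cast_smul_eq_nsmul ℝ, Nat.cast_pred c0] at c3
    rw [c2, map_sub, ← hT.rg.pull_comp hf' hμ.hol (hh.comp hu.hol) cm,
      ← hT.rg.pull_comp hf' hg (hγ.comp hu.hol) fun x => (congrFun e1 x).symm,
      hT.rg.pull_comp hu.hol hh _ fun _ => rfl, hT.rg.pull_comp hu.hol hγ _ fun _ => rfl, e,
      hT.c1.pull hu.hol _ n1, c3, Nat.cast_one, one_smul, ← map_sub]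
    congr 1
    module
  · rw [add_zero, one_nsmul]
    exact e4 _ k ⟨_, _, hu.hol.lb n1, rfl, hu.hol.sec n3, z, n4⟩

end Vale.Agent.P270U
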