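import Vale.Agent.P270U.Defs
import Vale.Agent.P285S.En.En
import Vale.Agent.P285W.O.Jet
import Vale.Agent.P285S.Tp.Thr

/-!
# P270U, row BGN: bounded poles and bigness
-/

open scoped Topology
open Set Filter
open Vale.Agent.P272.K Vale.Agent.P285.H281.FD Vale.Agent.P281Z Vale.Agent.P280Z
open Vale.Agent.P277Z.Slc (lin)
open Vale.Agent.P277.HD (pull)
open Vale.Agent.P285S (Ef)
open Vale.Agent.P285S.Tp (ef_add ef_smul dense_nz')

noncomputable section

namespace Vale.Agent.P270U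

namespace BgnH

variable {d : ℕ} {Z : Mf d}

theorem ef_bpf [Nonempty Z.X] {L : Bd Z.X} (hL : IsLB d L) (h : Bpf d L) : Ef Z (cls d L) :=
  let ⟨s, h1, h2⟩ := h (Classical.arbitrary _)
  ⟨L, s, hL, rfl, h1, _, h2⟩

/-- every class plus a multiple of a positive class is effective -/
theorem serre {T : CT} (hT : T.OK) [ConnectedSpace Z.X] {H : Bd Z.X} (hH : IsLB d H)
    (pH : Pos d H) (β : Pic d Z.X) : ∃ u : ℕ, Ef Z (u • cls d H + β) := by
  have k : ∀ γ : Pic d Z.X, ∃ r q₀ : ℕ, ∀ q ≥ q₀, Ef Z (q • (r • cls d H + γ)) := fun γ => by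
    obtain ⟨E, hE, rfl⟩ := Pic.ind (P := fun c => ∃ T, IsLB d T ∧ cls d T = c)
      (fun L hL => ⟨L, hL, cls_mk hL⟩) γ
    obtain ⟨r, q₀, -, h⟩ := P285S.En.ex_bpf hT hH (hT.c1.pos _ H hH pH) hE
    have l1 := lb_mul (lb_pow hH r) hE
    refine ⟨r, q₀, fun q hq => ?_⟩
    have e := ef_bpf (lb_pow l1 q) (h q hq)
    rwa [cls_pow l1, cls_mul (lb_pow hH r) hE, cls_pow hH] at e
  obtain ⟨r, q, h⟩ := k β
  obtain ⟨r', q', h'⟩ := k (-β)
  refine ⟨(q + q' + 1) * r + (q + q') * r', (congrArg (Ef Z) ?_).mp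
    (ef_add (h (q + q' + 1) (by omega)) (h' (q + q') (by omega)))⟩
  module

end BgnH

open BgnH in
/-- **BGN** -/
theorem bgn : BGN := by
  rintro d T hT κ ι _ A m N L ok lL ⟨H, C, lH, pH, hF⟩ hB H' lH'
  have := ok.conn
  have hG := Hyp.of_snc ok.snc
  obtain ⟨O, σ, hO⟩ := hG.exists_div
  have lO := fun l => (hO l).lb
  obtain ⟨j, c, η, hη⟩ := hB O σ hO H lH
  obtain ⟨u, hu⟩ := serre hT lH pH (-η)
  obtain ⟨i, hi, h1⟩ := hη (u + 1)
  obtain ⟨D, v, lD, cD, v1, v2⟩ := ef_add h1 (ef_smul hu i)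
  obtain ⟨x, x1, x2⟩ := ((dense_nz' lD v1 v2).inter_of_isOpen_right hG.dense hG.isOpen).nonempty
  have l1 := lb_lin lO fun l => -((i * (u + 1) * c * (-m l).toNat : ℕ) : ℤ)
  have lM := lb_mul lD l1
  obtain ⟨s, s1, y, y1, y2⟩ := (sy_zero lM).1 (((sy_zero lD).2 ⟨v, secP_of_sec (c := fun _ => 0)
    continuous_id v1 fun _ => le_rfl, x, x2, x1⟩).div holM_id lD hO _)
  have cM := cls_mul lD l1
  rw [cD, cls_lin lO] at cM
  replace cM := cM.trans (show _ = (i * (u + 1) * j) • cls d L - i • cls d H by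
    simp only [neg_smul, natCast_zsmul, Finset.sum_neg_distrib, mul_smul, ← Finset.smul_sum]
    module)
  obtain ⟨w, hw⟩ := serre hT lH pH (cls d L - cls d H' - ∑ l, (C * (-m l).toNat) • cls d (O l))
  obtain ⟨k, hk⟩ := P285W.O.JetH.bpf_large lH pH
  have ti : k + w ≤ (k + w) * i := Nat.le_mul_of_pos_right _ hi
  generalize ht : k + w = t at ti
  have lt := lb_pow lM t
  have s2 := s1.pow continuous_id t
  have s3 : SecP d d id univ _ A.G (fun l => ((C * (-m l).toNat : ℕ) : ℝ)) _ :=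
    ⟨s2.hol, s2.chg, fun a z _ ha => by
      obtain ⟨r, r1, r2⟩ := hk (t * i) (by omega) z
      obtain ⟨b, hb⟩ := lH.cover z
      have l2 := lb_pow lH (t * i)
      have k1 := hF 0 (t * (i * (u + 1) * j)) (t * (i * (u + 1) * c)) _ _ (lb_mul lt l2) (by
        rw [cls_mul lt l2, cls_pow lM, cls_pow lH]
        refine (congrArg (t • · + _) cM).trans ?_
        module) ((s2.mul continuous_id (secP_of_sec (c := fun _ => 0) continuous_id r1
          fun _ => le_rfl)).mono continuous_id fun l => le_of_eq (by push_cast; ring))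
      have k2 := sec_hol r1 (a := b) hb
      refine (((k1.bdP (a := (a, b)) trivial ⟨ha, hb⟩).cmul
        (k2.cont.inv₀ (r2 b hb))).congr ?_).mono continuousAt_id fun l _ => by simp
      filter_upwards [k2.ne_near (r2 b hb)] with y e _
      exact ((mul_left_comm _ _ _).trans (by rw [Pi.inv_apply, inv_mul_cancel₀ e, mul_one])).symm⟩
  have l3 := lb_lin lO fun l => ((C * (-m l).toNat : ℕ) : ℤ)
  obtain ⟨s', a1, z, z1, z2⟩ := (sy_zero (lb_mul lt l3)).1 (((sy_zero lt).2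
    ⟨_, s3, y, y1, fun a ha => pow_ne_zero t (y2 a ha)⟩).div holM_id lt hO _)
  obtain ⟨s'', b1, b2⟩ := a1.isSec ok.snc (lb_mul lt l3) fun l => by
    rw [Int.cast_natCast, sub_self]
    exact one_pos
  have e1 : Ef A.Z _ := ⟨_, s'', lb_mul lt l3, rfl, b1, z, fun a ha => b2 a z ha z1 ▸ z2 a ha⟩
  obtain ⟨g, hg⟩ := Nat.exists_eq_add_of_le (show w ≤ t * i by omega)
  refine ⟨t * (i * (u + 1) * j) + 1, Nat.succ_pos _, (congrArg (Ef A.Z) ?_).mp
    (ef_add (ef_add e1 hw) (ef_bpf (lb_pow lH g) (hk g (by omega))))⟩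
  have e2 := cls_mul lt l3
  rw [cls_pow lM, cls_lin lO] at e2
  rw [cls_pow lH]
  refine (congrArg (· + _ + _) (e2.trans (congrArg (t • · + _) cM))).trans ?_
  have e3 : t • i • cls d H = w • cls d H + g • cls d H := by rw [smul_smul, hg, add_smul]
  simp only [natCast_zsmul, smul_sub, e3]
  module

end Vale.Agent.P270U
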