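import Vale.Agent.P270U.Defs
import Vale.Agent.P270G.Efq
import Vale.Agent.P285S.Tp.Four
import Vale.Agent.P285W.J.Scale

/-!
# P270U, row GF0: the pair on a log resolution
-/

open Set Filter
open Vale.Agent.P272.K Vale.Agent.P285.H281.FD Vale.Agent.P281Z
open Vale.Agent.P277.HD (pull)
open Vale.Agent.P285N Vale.Agent.P285N.Tp
open Vale.Agent.P285S.Tp (ef_add ef_smul ef_pull sec_cls nf_comp)
open Vale.Agent.P270G

noncomputable section

namespace Vale.Agent.P270U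

theorem gf0 : GF0 := by
  intro n V Q D t q C M hQ K ⟨a, ha, s, s1, s2⟩ lM nM ⟨τ, i1, i2⟩
  have r := hQ.bir.res
  have := hQ.conn
  have eC := EfqH.ef_of (lb_pow K.lb a) s1 s2
  rw [cls_pow K.lb] at eC
  refine ⟨fun H lH pH k => ?_, ?_⟩
  · obtain ⟨b, hb, h⟩ := P285W.J.ScaleX.ex_bpf lH pH
    obtain ⟨x⟩ : Nonempty V.X := inferInstance
    obtain ⟨u, u1, u2⟩ := h x
    have l1 := lb_mul (lb_pow K.lb k) lH
    obtain ⟨E, e, e1, e2, e3, y, e4⟩ := ef_add (ef_smul eC (k * b))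
      (ef_smul (Y := V) ⟨_, u, lb_pow lH b, rfl, u1, x, u2⟩ a)
    obtain ⟨c, hc⟩ := e1.cover y
    refine ⟨a * b, Nat.mul_pos ha hb, sec_cls (lb_pow l1 _) e1 ?_ e3 ⟨c, y, hc, e4 c hc⟩⟩
    rw [e2, cls_pow l1, cls_mul (lb_pow K.lb k) lH, cls_pow K.lb, cls_pow lH]
    module
  obtain ⟨p, R, -, hR, lt, -⟩ := lrk2 n V Q D t q C Q.E 1 (fun _ => Q.s) hQ K r.lbE
    (fun _ => r.secE) ⟨0, r.nzE⟩
  obtain ⟨H, c, h1, h2, hF⟩ := rgq n V Q C _ R hQ hR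
  obtain ⟨B, hM⟩ := hR.md
  have hπ := hM.hol
  have ok := hR.ok
  have := ok.conn
  have lL := hπ.lb r.lbL
  have cP : cls n R.A.P = R.k • cls n (pull R.π C) := cls_pow (hπ.lb K.lb) _
  have cL : cls n Q.L = cls n C + cls n M := by
    rw [← cls_mul K.lb lM, cls_eq r.lbL (lb_mul K.lb lM)]
    exact ⟨τ, fun a b x ha hb e he => (i1 a b e x he ha hb).1.analyticAt,
      fun a b x ha hb => (i1 a b _ x (P277Z.at_chart x) ha hb).2, i2⟩
  refine ⟨_, _, inferInstance, R.A, R.m, R.N, R.π, B, R.k, (pull R.π M).pow R.k, hM, hR.kp,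
    ⟨⟨ok, lt, lb_pow lL _, P285S.Tp.F4.nf_pw lL (nf_comp hπ hQ.prj r.lbL (D30H.nf hQ)) _,
      lb_pow (hπ.lb lM) _, P285S.Tp.F4.nf_pw (hπ.lb lM) (nf_comp hπ hQ.prj lM nM) _, ?_⟩,
      ⟨0, fun k => ⟨a, ha, ?_⟩⟩, H, c, h1, h2, fun k i j M' s m1 m2 => hF k (i * R.k) j M' s m1
        (by rw [m2, cls_pow lL, mul_smul])⟩, cP⟩
  · rw [cP, cls_pow lL, cls_pow (hπ.lb lM), cls_pull hπ r.lbL, cls_pull hπ K.lb, cls_pull hπ lM, cL,
      map_add, smul_add]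
  · have := ef_smul (ef_pull hM eC) (k * R.k)
    rw [cP, cls_pull hπ K.lb, add_zero]
    convert this using 1
    rw [map_nsmul]
    module

end Vale.Agent.P270U
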