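import Vale.Agent.P270U.Defs
import Vale.Agent.P270H.Fpu
import Vale.Agent.P285S.Tp.Blu
import Vale.Agent.P285S.Tp.Thr
import Vale.Agent.P285S.Tp.Nfp

/-!
# P270U, row MOD
-/

open Set Filter Function
open Vale.Agent.P272.K Vale.Agent.P285.H281.FD Vale.Agent.P281Z Vale.Agent.P280Z
open Vale.Agent.P277.HD (pull)

noncomputable section

namespace Vale.Agent.P270U

/-- row MOD -/
theorem mod_ : MOD := by
  intro d T _ κ ι _ A m N L M W τ S g hτ pW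
  have := g.ok.conn
  have := hτ.conn
  have hZ := hτ.pre_thin ((snc_thin_off g.ok.snc).union hτ.thin)
  obtain ⟨I, hI, -⟩ := Rs.idl d W _ hZ.1
  rw [← hI] at hZ
  obtain ⟨R⟩ := Rs.res d d W univ I an_univ
    (subM_open (by rw [← compl_eq_univ_sdiff]; exact hZ.closed.isOpen_compl))
  have h0 : Modif d R.π _ := ⟨hZ, R.ovr⟩
  have h1 := hτ.comp rem h0
  have hπ := h1.hol
  have pY := R.prj pW
  have k0 : ∀ y ∈ off R.G, τ (R.π y) ∉ (off A.G)ᶜ ∪ S := fun y hy k =>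
    ((R.bad y).1 (hI ▸ k)).elim hy
  have k : ∀ y ∈ off R.G, τ (R.π y) ∉ S ∪ τ '' I.Z := fun y hy c =>
    c.elim (fun c => k0 y hy (.inr c)) fun ⟨x, c, e⟩ => k0 y hy (e ▸ (hI ▸ c : x ∈ τ ⁻¹' _))
  have ko : ∀ y ∈ off R.G, τ (R.π y) ∈ off A.G := fun y hy => not_not.1 fun c => k0 y hy (.inl c)
  obtain ⟨m', Ω, k1, kb, kn⟩ := P285S.Tp.blow g.ok h1 pY R.snc R.conn fun y hy => ⟨k y hy, ko y hy⟩
  have e0 : cls d ((pull (fun y => τ (R.π y)) A.P).pow 1) =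
      cls d (pull (fun y => τ (R.π y)) A.P) := by
    rw [cls_pow (hπ.lb g.ok.lb), one_smul]
  have n1 := P285S.Tp.nf_comp hπ g.ok.prj g.lb g.nef
  have n2 := P285S.Tp.nf_comp hπ g.ok.prj g.lbM g.nfM
  have e := e0.trans (cls_pull hπ g.ok.lb)
  refine ⟨_, inferInstance, (P285N.Tp.LR.mk R.V (fun y => τ (R.π y)) R.G m' N 1 Ω :
    P285N.Tp.LR A.Z A.P _).A, m', R.π, _, h0, ⟨⟨k1, fun l => (k1.le l).lt_of_ne fun e => ?_,
    hπ.lb g.lb, n1, hπ.lb g.lbM, n2, ?_⟩, ?_, ?_⟩, e0⟩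
  · obtain ⟨y, hy⟩ := (R.conn l).nonempty
    obtain ⟨j, j1, -⟩ := kb l e y hy
    exact (g.klt j).ne j1
  · refine (cls_pull hπ g.lb).trans (Eq.trans ?_ (congrArg₂ _ e (cls_pull hπ g.lbM)).symm)
    rw [g.cl, map_add]
  · obtain ⟨h, hh⟩ := g.ps
    refine ⟨hπ.pic h, fun i => (hh i).imp fun j hj => ⟨hj.1, ?_⟩⟩
    have z := P285S.Tp.ef_pull h1 hj.2
    rw [map_nsmul, map_add, map_nsmul, ← e] at z
    exact z
  · exact P270H.fpu d κ ι (Fin R.r) ι A (P285N.Tp.LR.mk R.V (fun y => τ (R.π y)) R.G m' N 1 Ω :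
      P285N.Tp.LR A.Z A.P _).A m m' (fun y => τ (R.π y)) _ L ⟨g.ok.conn, g.ok.prj⟩ pY g.ok.snc
      R.snc h1 g.lb (fun y hy => ⟨ko y hy, h1.imm (k y hy)⟩) kn g.bp

end Vale.Agent.P270U
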