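import Vale.Agent.P270U.Defs
import Vale.Agent.P285T.Cb.Hlp2
import Vale.Agent.P280Z.Ld.Iso

/-!
# P270U, rows MPU and MP0
-/

open scoped Topology
open Set Filter
open Vale.Agent.P272.K Vale.Agent.P285.H281.FD Vale.Agent.P281Z Vale.Agent.P280Z
open Vale.Agent.P277.HD (pull)
open Vale.Agent.P285N.Tp (FLC)
open Vale.Agent.P285W.Bs (Cp)

noncomputable section

namespace Vale.Agent.P270U

namespace MpuH

variable {n w r : ℕ} {T : CT}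

theorem rk_up {V X : Mf n} {π : X.X → V.X} {S : Set V.X} (hπ : Modif n π S) {B : Bd V.X}
    (lB : IsLB n B) {s : Fin (r + 1) → B.ι → V.X → ℂ} (hs : ∀ b, IsSec n B (s b))
    (h : Rk n univ B s) : Rk n univ (pull π B) fun b i x => s b i (π x) := by
  obtain ⟨x, -, a, ha, h0, hI⟩ := h
  obtain ⟨y, y0, ⟨y1, y2⟩, y3⟩ := ((mem_closure_iff_frequently.1 (hπ.1.2 x)).and_eventually
    (((lb_near lB ha).and ((sec_hol (hs 0) ha).ne_near h0)).and hI.near)).exists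
  obtain ⟨z, rfl⟩ := hπ.ex y0
  exact ⟨z, trivial, a, y1, y2, (hπ.sbm y0).ind (hπ.hol.at z) y3⟩

theorem core (hA : MPA) (hB : MPB) (hT : T.OK) (hF : FLC T) {X : Mf n} {W : Mf w} {f : X.X → W.X}
    (hf : Fibn n w f) (cX : Cp X) (cW : Cp W) {B : Bd X.X} {E : Bd W.X} (lB : IsLB n B)
    (lE : IsLB w E) {c : ℕ} (c0 : 0 < c) (e : T.pull hf.hol (T.c1 W E) = (c : ℝ) • T.c1 X B)
    {s : Fin (r + 1) → B.ι → X.X → ℂ} (hs : ∀ b, IsSec n B (s b)) (h : Rk n univ B s) :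
    Mp W E r := by
  obtain ⟨X₁, u, S, P, γ, hu, pr, hγ, sγ, ef⟩ := hA n r X B s cX lB hs h
  have := cX.conn
  exact hB T hT hF n w r c X₁ W _ (hf.modif hu) (pull u B) E P γ ⟨hu.conn, pr⟩ cW (hu.hol.lb lB)
    lE c0 (by rw [hT.rg.pull_comp hu.hol hf.hol _ fun _ => rfl, e, map_smul,
      hT.c1.pull hu.hol _ lB]) hγ sγ ef

theorem c1s (hT : T.OK) {V : Mf n} {L M : Bd V.X} (hL : IsLB n L) (hM : IsLB n M) {k : ℕ}
    (h : cls n L = k • cls n M) : T.c1 V L = (k : ℝ) • T.c1 V M :=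
  let ⟨t, ht⟩ := (cls_eq hL (lb_pow hM k)).1 (h.trans (cls_pow hM k).symm)
  ((Ld.iso V _ _ t hL (lb_pow hM k) ht).1 T hT.c1).trans (hT.c1.pow V M k hM)

end MpuH

open MpuH

theorem mpu_of' (hC : P285T.Cb.BCP) (hA : MPA) (hB : MPB) : MPU := by
  intro T hT hF w e V Q M U C E hU r z W τ S hτ P ⟨j, s, _, hs, rk⟩ hW lP hz hc
  obtain ⟨X₁, f₁, κ₁, _, G₁, δ₁, u, k1, k2, -, -, k3⟩ := hC _ w M W τ S hU.fb hτ hU.ok.prj hW
  obtain ⟨B₁, hu⟩ := k2.mu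
  obtain ⟨B, hπ⟩ := hU.md
  have lC := lb_pow hU.lbC j
  have l1 := hπ.hol.lb lC
  have hf : Fibn _ w f₁ := k1.fibn
  have := hU.fb.connY
  refine ⟨j, core hA hB hT hF hf ⟨k1.conn, k3⟩ ⟨hτ.conn, hW⟩ (hu.hol.lb l1) (lb_pow lP j)
    (Nat.mul_pos (Nat.mul_pos hz hU.cp) hU.kp) ?_ (fun b => hu.hol.sec (hπ.hol.sec (hs b)))
    (rk_up hu l1 (fun b => hπ.hol.sec (hs b)) (rk_up hπ lC hs rk))⟩
  rw [hT.c1.pow _ _ _ lP, map_smul, hc, map_smul,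
    ← hT.rg.pull_comp hf.hol hτ.hol (hτ.hol.comp hf.hol) fun _ => rfl,
    hT.rg.pull_comp hu.hol hU.fb.fibn.hol (hτ.hol.comp hf.hol) fun x => (k2.comm x).symm, hU.cE,
    c1s hT hU.ok.lb (hπ.hol.lb hU.lbC) hU.cl, hT.c1.pull hu.hol _ l1, hT.c1.pull hπ.hol _ lC,
    hT.c1.pow _ _ _ hU.lbC, hT.c1.pull hπ.hol _ hU.lbC]
  simp only [map_smul, smul_smul]
  push_cast
  exact congrArg (· • _) (by ring)

theorem mpu_of : MPA → MPB → MPU := mpu_of' P285T.Cb.bcp_row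

theorem mp0_93 (hA : MPA) (hB : MPB) : MP0 := by
  intro T hT hF n r k V Z π S C P cV pZ hπ lC lP hk hc ⟨j, s, _, hs, rk⟩
  have := cV.conn
  have cZ : Cp Z := ⟨hπ.conn, pZ⟩
  have l0 := lb_pow lC j
  refine ⟨j, core hA hB hT hF modif_id.fibn cZ cZ (hπ.hol.lb l0) (lb_pow lP j) hk ?_
    (fun b => hπ.hol.sec (hs b)) (rk_up hπ l0 hs rk)⟩
  rw [hT.rg.pull_id, hT.c1.pow _ _ _ lP, c1s hT lP (hπ.hol.lb lC) hc, hT.c1.pull hπ.hol _ l0,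
    hT.c1.pow _ _ _ lC, hT.c1.pull hπ.hol _ lC, map_smul, smul_comm]

end Vale.Agent.P270U
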