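import Vale.Agent.P270U.Defs
import Vale.Agent.P285W.Bs.All
import Vale.Agent.P270G.Gdf

/-!
# P270U, row NED: a section upstairs gives a numerically effective class on the base
-/

open Set Filter Function
open Vale.Agent.P272.K Vale.Agent.P285.H281.FD Vale.Agent.P281Z Vale.Agent.P285N
open Vale.Agent.P277.HD (pull)
open Vale.Agent.P280Z

namespace Vale.Agent.P270U

theorem NedH.surj_imm {b : ℕ} {S Z : Mf b} [ConnectedSpace Z.X] {p : S.X → Z.X} (hp : HolM b b p)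
    {x : S.X} (h : Imm b b p x) : Surjective p := by
  by_contra c
  obtain ⟨y, y1, y2⟩ := mem_closure_iff_nhds.1 (((P281Z.rem b b S Z p univ hp an_univ).thin
    fun e => c (range_eq_univ.1 (image_univ ▸ e))).dense (p x)) _
      ((imm_iff_sbm.1 h).map_nhds (hp.at x) ▸ image_mem_map univ_mem : p '' univ ∈ nhds (p x))
  exact y2 y1

theorem ned_of (hM : P285W.Bs.MSEC) (hU' : P285W.J.PUSH) : NED := by
  intro T hT hF w e V Q M U C E hU h P z hP hz
  obtain ⟨a, ha, s, s1, b, x, s2, s3⟩ := h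
  obtain ⟨B, hB⟩ := hU.md
  have cX := hU.fb.conn
  have cY := hU.fb.connY
  have hf := hU.fb.fibn.hol
  have lL := hU.lbC
  have l1 := hB.hol.lb (lb_pow lL a)
  have t1 := hB.hol.sec s1
  obtain ⟨y, rfl⟩ := hB.surj x
  have hA : An (w + (e + 1)) {x | ¬ NZ (pull U.π (C.pow a)) (fun c z => s c (U.π z)) x} :=
    fun x => (l1.cover x).elim fun a ha => ⟨1, fun _ z => s a (U.π z),
      fun _ => P281Z.sec_hol t1 ha,
      (lb_near l1 ha).mono fun y hy => (P280Z.Ld.not_nz l1 t1 hy).trans (forall_const _).symm⟩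
  obtain ⟨S, i, cS, hi, hN, x, hx⟩ := hM T hT _ w M.X M.Y M.f _ ⟨cX, hU.ok.prj⟩
    ⟨cY, hU.prj⟩ hf hU.fb.fibn.surj (hA.thin fun e => eq_univ_iff_forall.1 e y
      ((nz_iff l1 (fun a b => t1.change a b y) s2).2 s3)).neg
  have hp : HolM w w fun x => M.f (i x) := hf.comp hi
  have c0 : (0 : ℝ) < U.c * U.k := by
    have := hU.cp
    have := hU.kp
    positivity
  obtain ⟨m, hm, he⟩ := hU' T hT w M.Y E cY hU.prj hU.lbE ⟨S, _, hp, a / (U.c * U.k),
    cS.conn, cS.prj, NedH.surj_imm hp hx, by positivity, _, _, hi.lb l1, hi.sec t1,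
    hN.dense.mono fun y hy => not_not.1 hy, by
      rw [hT.rg.pull_comp hi hf hp (fun _ => rfl), hU.cE, P270G.GdfH.c1_cls hT hU.ok.lb
        (lb_pow (hB.hol.lb lL) U.k) (hU.cl.trans (cls_pow (hB.hol.lb lL) _).symm),
        hT.c1.pow _ _ _ (hB.hol.lb lL), hT.c1.pull hi _ l1, smul_smul, map_smul, smul_smul,
        div_mul_cancel₀ _ c0.ne', ← map_smul, ← hT.c1.pow _ _ _ (hB.hol.lb lL)]
      rfl⟩
  obtain ⟨D, t, d1, d2, d3, d4⟩ := he
  exact P285W.J.numEff_of hT hF hU.prj.kah hP hm ⟨_, _, lb_pow d1 z, P285N.Tp.N2.pow_sec d2 z,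
    d3.mono fun y (hy : NZ D t y) c hc => pow_ne_zero _ (hy c hc), by
      rw [hT.c1.pow _ _ _ d1, d4, hz, smul_comm]⟩

/-- row NED -/
theorem ned : NED := ned_of P285W.Bs.msec P285W.Ct.push

end Vale.Agent.P270U
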