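import Vale.Agent.P270U.Defs2
import Vale.Agent.P285S.Mp.Nvso
import Vale.Agent.P285S.Mm.Mkpr
import Vale.Agent.P285S.Tp.Nfp
import Vale.Agent.P281Z.Ri.One
import Vale.Agent.P281Z.Ri.Tools
import Vale.Agent.P281Z.Lf.Rech
import Vale.Agent.P281Z.Nt.Neat
import Vale.Agent.P285N.Xc.Cls

/-!
# P270U: row REL2
-/

open Set Filter
open Vale.Agent.P272.K Vale.Agent.P285.H281.FD Vale.Agent.P281Z Vale.Agent.P285N
open Vale.Agent.P277Z.Slc (IsDiv Snc lin isLB_can)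
open Vale.Agent.P277.HD (pull)
open Vale.Agent.P285S Vale.Agent.P285S.Mm.Ps.Nvso
open Vale.Agent.P285N.Tp.Lr (rel rel_lb rel_sec)

namespace Vale.Agent.P270U.R18

theorem can_imm {d : ℕ} {C F : Mf d} {j : C.X → F.X} (hj : HolM d d j) (h : ∀ z, Imm d d j z) :
    cls d (Bd.can d C.X) = hj.pic (cls d (Bd.can d F.X)) := by
  have k := cls_sec (rel_lb hj) (rel_sec hj) fun z a ha =>
    (imm_iff_det (hj.at z) ha.1 ha.2).1 (h z)
  rw [rel, cls_mul isLB_can (lb_zp (hj.lb isLB_can) _), cls_zp (hj.lb isLB_can), neg_one_zsmul,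
    add_neg_eq_zero] at k
  rw [k, cls_pull hj isLB_can]

theorem thin {n : ℕ} {V : Mf n} [ConnectedSpace V.X] {E : Bd V.X} {s : E.ι → V.X → ℂ}
    (hE : IsLB n E) (hs : IsSec n E s) {x : V.X} (h0 : NZ E s x) : Thin n {x | ¬ NZ E s x} := by
  have hA : An n {x | ¬ NZ E s x} := fun y => (hE.cover y).elim fun a ha =>
    ⟨1, fun _ => s a, fun _ => sec_hol hs ha, (lb_near hE ha).mono fun z k =>
      (nz_iff hE (fun a b => hs.change a b z) k).not.trans (by simp)⟩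
  exact hA.thin fun e => eq_univ_iff_forall.1 e x h0

theorem pse_add {n : ℕ} {V : Mf n} [ConnectedSpace V.X] {α β : Pic n V.X} (h : Ef V α)
    (k : Pse V β) (a : ℕ) : Pse V (α + a • β) := by
  obtain ⟨η, k⟩ := k
  refine ⟨η, fun i => ?_⟩
  obtain ⟨j, hj, e⟩ := k (i * a)
  refine ⟨j, hj, ?_⟩
  have := Tp.ef_add (Tp.ef_smul (Tp.ef_smul h i) j) e
  rwa [← smul_add, ← add_assoc, mul_smul, ← smul_add] at this

theorem rel2_of (st : START) (fd : FIBD) : REL2 := by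
  intro w T hT κ ι _ A m N hF L M a r hG ⟨Y, H, γ, cY, lH, pH, hγ, sγ, hd'⟩ hw ⟨Z, t1, t2⟩ O σ hD H₀ l₀
  have ok := hG.ok
  have := ok.conn
  have hS := ok.snc
  have hH := Hyp.of_snc hS
  obtain ⟨η, ps⟩ := hG.ps
  choose j₀ hj₀ D₀ t₀ d1 d2 d3 x0 d4 using ps
  have lO := fun l => (hD l).lb
  choose B lB cB using fun j : ℕ => Pic.ind (P := fun c => ∃ T, IsLB w T ∧ cls w T = c)
    (fun L hL => ⟨L, hL, cls_mk hL⟩)
    (j • (cls w L + ∑ l, (-m l).toNat • cls w (O l)) - cls w H₀)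
  choose S s1 s2 using fun j => st w r A.Z Y γ H (B j) κ A.G (fun _ => 0) cY hγ lH pH (lB j) hS
  obtain ⟨Q, q1, q2⟩ := genS w r A.Z Y γ _ A.G hγ hS
  obtain ⟨x, hy⟩ := (((((Neg.iUnion s1).union q1.neg).pre fun S k => k.pre_surj hγ sγ).union
    (Neg.iUnion fun k => (thin (d1 k) (d3 k) (d4 k)).neg)).union
      (Neg.iUnion fun k => (t1 k).neg)).dense.nonempty
  have hr := q2 _ fun c => hy (.inl (.inl (.inr c)))
  obtain ⟨d, hd⟩ := Nat.exists_eq_add_of_le (hr.sbm hγ hS rfl).le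
  obtain ⟨F, i, hi, hs⟩ := hr.fib hd hγ hS
  obtain ⟨u, rfl⟩ := hi.ex (rfl : x ∈ γ ⁻¹' {γ x})
  obtain ⟨C, j, cC, hj⟩ := comp_emb F u
  obtain ⟨u, rfl⟩ := hj.ex mem_connectedComponent
  have sj : ∀ z, Sbm d d j z := fun z => imm_iff_sbm.1 (hj.imm z)
  have hk : HolM d w fun z => i (j z) := hi.hol.comp hj.hol
  have sC := snc_pull hj.hol sj hs
  have pC : C.Prj := ok.prj.elim fun H h => ⟨_, hk.lb h.1, Lf.pos_pull hk
    (fun z => Imm.comp (hi.hol.at _) (hj.hol.at z) (hi.imm _) (hj.imm z)) h.2⟩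
  have hO : ∀ l, IsDiv d (j ⁻¹' (i ⁻¹' A.G l)) (pull (fun z => i (j z)) (O l))
      fun a z => σ l a (i (j z)) := fun l => ⟨hk.lb (lO l), hk.sec (hD l).sec,
    fun a z ha => (sj z).leq (hj.hol.at z) (hr.leq1 hγ hS hi ((hD l).leq a _ ha))⟩
  have lP := hk.lb ok.lb
  have l0 := lb_lin (fun l => (hO l).lb) fun l => ((-m l).toNat : ℤ)
  have l1 := lb_mul lP l0
  have c1 := (cls_mul lP l0).trans (congrArg _ (cls_mon hO fun l => (-m l).toNat))
  have cK : cls d (Bd.can d C.X) = hk.pic (cls w (Bd.can w A.Z.X)) := by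
    rw [can_imm hj.hol hj.imm, Ri.On.cls_can hr hγ hS hi, ← cls_pull hi.hol isLB_can,
      ← cls_pull hj.hol (hi.hol.lb isLB_can), ← cls_pull hk isLB_can]
    rfl
  have c2 := c1.trans (show _ = N • cls d (Bd.can d C.X) +
      ∑ l, max (m l) 0 • cls d (pull (fun z => i (j z)) (O l)) by
    rw [cls_pull hk ok.lb, Xc.cls_eq w κ ι m N A O σ ok hD, map_add, map_nsmul, map_sum, ← cK,
      add_assoc, ← Finset.sum_add_distrib]
    refine congrArg _ (Finset.sum_congr rfl fun l _ => ?_)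
    rw [map_zsmul, ← cls_pull hk (lO l), ← natCast_zsmul, ← add_smul]
    exact congrArg (· • _) (by omega))
  have lt : ∀ l, max (m l) 0 < N := fun l => max_lt (hG.klt l) (by exact_mod_cast ok.pos)
  obtain ⟨Ω, ok'⟩ := Mm.mkpr d _ C _ _ _ _ (fun l => max (m l) 0) N cC pC sC hO l1 ok.pos ok.even
    (fun l => (lt l).le) c2
  have c3 : cls d ((pull (fun z => i (j z)) A.P).mul (lin (fun l => pull (fun z => i (j z)) (O l))
      fun l => ((-m l).toNat : ℤ))) + cls d (pull (fun z => i (j z)) M) =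
      cls d (pull (fun z => i (j z)) L) +
        ∑ l, (-m l).toNat • cls d (pull (fun z => i (j z)) (O l)) := by
    rw [c1, cls_pull hk hG.lb, hG.cl, map_add, ← cls_pull hk ok.lb, ← cls_pull hk hG.lbM,
      add_right_comm]
  rcases fd d (by omega) T hT _ _ _ _ N hF _ _ _ _ (fun l => (-m l).toNat) ok'
    (fun l => ⟨le_max_right _ _, lt l⟩) hO (hk.lb hG.lb) (hk.lb hG.lbM)
    (Tp.nf_comp hk ok.prj hG.lb hG.nef) (Tp.nf_comp hk ok.prj hG.lbM hG.nfM) c3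
    ⟨hk.pic η, fun k => ⟨j₀ k, hj₀ k, by
      have e := Tp.ef_add (⟨_, _, hk.lb (d1 k), rfl, hk.sec (d3 k), u, not_not.1 fun c =>
        hy (.inl (.inr (mem_iUnion.2 ⟨k, c⟩)))⟩ : Ef C _)
        (Tp.ef_smul (Tp.ef_smul (ef_mon hO fun l => (-m l).toNat) k) (j₀ k))
      rw [cls_pull hk (d1 k), d2 k, map_nsmul, map_add, map_nsmul, ← cls_pull hk ok.lb,
        ← smul_add, add_right_comm, ← smul_add, ← c1] at e
      exact e⟩⟩ with hb | hb
  · obtain ⟨b, -, D, t, e1, e2, e3, e4⟩ := hb _ (hk.lb l₀)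
    obtain ⟨v, v1, v2⟩ := ((Tp.dense_nz' (V := C) e1 e3 e4).inter_of_isOpen_right
      (snc_dense_off sC) (snc_open_off sC)).nonempty
    have lF := hi.hol.lb (lB b)
    obtain ⟨t', f1, y, f2, f3⟩ := (sy_zero lF).1 (Ri.ext0 d w 0 C F A.Z i j _ _ _ _ _ hj
      (Sy.of_cls hH hk.cont (hj.hol.lb lF) e1
        ((sy_zero e1).2 ⟨t, secP_of_sec (c := fun _ => 0) hk.cont e3 fun _ => le_rfl, v, v2, v1⟩)
        (by
          rw [e2]
          refine (cls_pull hk (lB b)).trans ?_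
          rw [cB, map_sub, map_nsmul, map_add, map_sum, ← cls_pull hk l₀, ← cls_pull hk hG.lb]
          simp only [map_nsmul, ← cls_pull hk (lO _)]
          exact congrArg (fun z => b • z - _) c3.symm) fun _ => le_rfl))
    obtain ⟨a₀, ha⟩ := s2 b _ (fun c => hy (.inl (.inl (.inl (mem_iUnion.2 ⟨b, c⟩))))) d F i hi t' f1
    obtain ⟨c, hc⟩ := lH.cover (γ (i (j u)))
    obtain ⟨s, g1, g2⟩ := ha a₀ le_rfl c hc
    have lR := hγ.lb (lb_pow lH a₀)
    have lQ := lb_mul (lB b) lR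
    obtain ⟨s', g3, g4⟩ := g1.isSec hS lQ fun _ => zero_lt_one
    obtain ⟨p, hp⟩ := (lB b).cover (i y)
    have hq : i y ∈ ((B b).mul (pull γ (H.pow a₀))).U (p, c) := ⟨hp, by
      show γ (i y) ∈ H.U c
      rw [show γ (i y) = γ (i (j u)) from hi.fib y]
      exact hc⟩
    have e5 : Ef A.Z (cls w (B b) + a₀ • cls w (pull γ H)) := ⟨_, s', lQ, by
      rw [cls_mul (lB b) lR, cls_pull hγ (lb_pow lH a₀), cls_pow lH, map_nsmul, cls_pull hγ lH],
      g3, i y, (nz_iff lQ (fun a b => g3.change a b _) hq).2 (by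
        rw [g4 _ _ hq f2, g2 y p f2 hp]
        exact f3 p hp)⟩
    refine ⟨b + a₀ * a, b, ?_⟩
    have e6 := pse_add e5 hd' a₀
    rw [cB] at e6
    convert e6 using 1
    simp only [add_smul, mul_smul, smul_add, smul_sub, Finset.smul_sum]
    abel
  · refine (hb ⟨fun k => (fun z => i (j z)) ⁻¹' Z k, fun k => Thin.pre_of_ex (t1 k).1 hk
      ⟨u, fun c => hy (.inr (mem_iUnion.2 ⟨k, c⟩))⟩, ?_⟩).elim
    rintro _ ⟨E, f, hf, hE, ⟨z, rfl⟩, ⟨c, c', hc⟩, h0⟩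
    rw [← preimage_iUnion]
    exact t2 ⟨E, _, hk.comp hf, hE, ⟨z, rfl⟩, ⟨c, c', fun e => hc (hj.inj (hi.inj e))⟩, by
      rw [hT.rg.pull_comp hf hk _ fun _ => rfl, ← hT.c1.pull hk L hG.lb]
      exact h0⟩

end Vale.Agent.P270U.R18
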