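import Vale.Agent.P270U.Defs
import Vale.Agent.P285W.Bs.Nim

/-!
# P270U: the row TRU
-/

open Set Filter Function
open Vale.Agent.P272.K Vale.Agent.P285.H281.FD Vale.Agent.P281Z Vale.Agent.P280Z
open Vale.Agent.P285W Vale.Agent.P285W.J Vale.Agent.P285W.Bs

noncomputable section

namespace Vale.Agent.P270U

theorem tr_gd {T : CT} (hT : T.OK) {d : ℕ} {Z : Mf d} {l : T.H Z} (hZ : Z.Prj)
    (hl : T.Dg Z 1 l) : Tr T Z l ⊆ Gd T Z l 1 := by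
  rintro t ⟨C, g, hg, cC, k, h1, h2⟩
  obtain ⟨pC, tC⟩ := c1p_of nim T hT d C Z g cC hZ hg h1
  obtain ⟨x, hx⟩ := tC.dense.nonempty
  exact ⟨C, g, hg, ⟨cC, pC⟩, ⟨x, not_not.1 hx⟩, k, top hT inferInstance
    (pC.elim fun L k => (hT.po.kah C).2 ⟨_, hT.c1.pos C L k.1 k.2⟩) (dg_pull hT hg hl) h2⟩

theorem tru : TRU := by
  intro T hT d Y Z π S hπ l a hZ _ a0 h
  have h : Neg d (Tr T Z l) := h.elim id fun k => k.2.mono (tr_gd hT hZ.prj k.1)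
  refine (hπ.pre_neg (h.union hπ.thin.neg)).mono ?_
  rintro _ ⟨C, f, hf, hC, ⟨x, rfl⟩, ⟨c, c', hc⟩, h0⟩
  by_cases k : ∃ c c', π (f c) ≠ π (f c')
  · rw [map_smul, map_smul, smul_eq_mul] at h0
    exact .inl ⟨C, _, hπ.hol.comp hf, hC, ⟨x, rfl⟩, k, by
      rw [hT.rg.pull_comp hf hπ.hol _ fun _ => rfl]
      exact (mul_eq_zero.1 h0).resolve_left a0.ne'⟩
  · push Not at k
    exact .inr (by_contra fun k' => hc ((hπ.inj k' (k c x)).trans (hπ.inj k' (k c' x)).symm))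

end Vale.Agent.P270U
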