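import Vale.Agent.P270U.Bpx
import Vale.Agent.P270U.Mpa
import Vale.Agent.P270U.Mpbb
import Vale.Agent.P270U.Fibd
import Vale.Agent.P270U.Smd
import Vale.Agent.P270U.Mod
import Vale.Agent.P270U.Tru
import Vale.Agent.P270U.Rel18
import Vale.Agent.P270U.Bgn
import Vale.Agent.P270U.Gf0
import Vale.Agent.P270U.Fke
import Vale.Agent.P270U.Ned
import Vale.Agent.P270U.Mpu
import Vale.Agent.P270U.Mp0
import Vale.Agent.P270V.Mpm
import Vale.Agent.P285U.Bpf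
import Vale.Agent.P285U.Ksg
import Vale.Agent.P285U.Resp8
import Vale.Agent.P285U.Fgab
import Vale.Agent.P285U.Fgg36
import Vale.Agent.P285U.Wil
import Vale.Agent.P270H.All20

/-!
# P270U: all the rows
-/

open Vale.Agent.P281Z Vale.Agent.P280Z

namespace Vale.Agent.P270U

theorem bgs_mono (mpm : P270V.MPM) (h : BGS2) : BGS := by
  intro d T hT κ ι _ A m N hF L M a r g mp
  refine h d T hT κ ι A m N hF L M a r g (mpm T hT d r 0 a A.Z _ _ A.P (T.c1 A.Z M)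
    ⟨g.ok.conn, g.ok.prj⟩ (lb_pow g.ok.lb a) (lb_pow g.lb a) g.ok.lb g.ps
    (P285W.J.nf_of hT g.ok.prj g.lbM g.nfM) ?_ mp)
  rw [hT.c1.pow _ _ _ g.lb, hT.c1.pow _ _ _ g.ok.lb, P270G.GdfH.c1_cls hT g.lb
    (lb_mul g.ok.lb g.lbM) (g.cl.trans (cls_mul g.ok.lb g.lbM).symm),
    hT.c1.mul _ _ _ g.ok.lb g.lbM, smul_add, Nat.cast_zero, zero_smul, add_zero]

theorem bpfg : P285U.BPFG :=
  P285U.bpfg_of (P285U.ksg_of P285U.resp8 P270H.fpu) P285U.fgab P285U.fgg36 P285U.wil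

theorem fibd : FIBD := fibd_of P270F.Mg.zc smd P270H.gag P270H.nvs4

theorem bgs2 : BGS2 := bgs2_of mod_ tru (R18.rel2_of Pk.start fibd) bgn (bpx_fg bpfg)

theorem bgsv : P270V.BGS := bgs2

open P270H in
/-- **KG** -/
theorem kg : KG :=
  kg_of P270G.nsd (st071 ds2) crp fk03 (fk1_of rf) P285T.Cb.one0 P285T.Cb.cbf
    (wpr53 (nzt61 rf) (hor61 rf) P285T.Cb.cle59 P285T.Cb.zar1b P285T.Cb.zar97) (fpd_of lam) psb
    amb gdw (gup3_of fpu) end3 tru (bgs_mono P270V.mpm bgs2) gf0 fke ned (mpu_of mpa mpbb)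
    (mp0_of mpa)

end Vale.Agent.P270U
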