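import Vale.Agent.P270U.Defs
import Vale.Agent.P285S.Mp.Wz4
import Vale.Agent.P285S.Mp.Nvso
import Vale.Agent.P285S.Ca.Efa
import Vale.Agent.P285W.J.Scale
import Vale.Agent.P281Z.Lf.Nu

/-!
# P270U: row BGN
-/

open scoped Topology
open Set Filter
open Vale.Agent.P272.K Vale.Agent.P285.H281.FD Vale.Agent.P281Z
open Vale.Agent.P277Z.Slc (IsDiv Snc lin)
open Vale.Agent.P277.HD (pull)
open Vale.Agent.P285N
open Vale.Agent.P285S (Ef)
open Vale.Agent.P285S.Mm.Ps.Nvso (cls_mon)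

noncomputable section

namespace Vale.Agent.P270U

theorem BgnB.key {d : ℕ} {κ ι : Type} [Fintype κ] {A : Pr d κ ι} {m : κ → ℤ} {O : κ → Bd A.Z.X}
    {σ : ∀ l, (O l).ι → A.Z.X → ℂ} {H L W : Bd A.Z.X} {C i n : ℕ} (hS : Snc d A.G)
    (hO : ∀ l, IsDiv d (A.G l) (O l) (σ l)) (hF : Xc.Fp A m H L C) (hW : IsLB d W) (hb : Bpf d W)
    (h : Ef A.Z (i • cls d L + ∑ l, (n * (-m l).toNat) • cls d (O l) - cls d W)) :
    Ef A.Z (i • cls d L + ∑ l, (C * (-m l).toNat) • cls d (O l) - cls d W) := by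
  obtain ⟨D, t, hD, e, ht, x, hx⟩ := h
  have lO := fun l => (hO l).lb
  let k : κ → ℤ := fun l => -((n * (-m l).toNat : ℕ) : ℤ)
  let k' : κ → ℤ := fun l => ((C * (-m l).toNat : ℕ) : ℤ)
  have l2 := holM_id.lb (lb_lin lO k)
  have l3 := holM_id.lb (lb_lin lO k')
  have lM := lb_mul hD l2
  have eM : cls d (D.mul (pull (fun x => x) (lin O k))) = i • cls d L - cls d W := by
    rw [cls_mul hD l2, e]
    refine (congrArg (_ + ·) (cls_lin lO k)).trans ?_
    have : ∑ l, k l • cls d (O l) = -∑ l, (n * (-m l).toNat) • cls d (O l) := by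
      rw [← Finset.sum_neg_distrib]
      exact Finset.sum_congr rfl fun l _ => by rw [neg_smul, natCast_zsmul]
    rw [this]
    abel
  have d1 := secP_div (O := univ) holM_id hO k
  have d2 := secP_div (O := univ) holM_id hO k'
  have hs := (secP_of_sec (c := fun _ => 0) continuous_id ht fun _ => le_rfl).mul
    continuous_id d1.1
  have hs' : SecP d d id univ _ A.G (fun l => ((C * (-m l).toNat : ℕ) : ℝ)) _ :=
    ⟨hs.hol, hs.chg, fun a y _ ha => by
      obtain ⟨u, u1, u2⟩ := hb y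
      obtain ⟨b, hb'⟩ := hW.cover y
      have h1 := hF 0 i n _ _ (lb_mul lM hW) (by
          rw [cls_mul lM hW, eM, zero_smul, zero_add, sub_add_cancel])
        ((hs.mul continuous_id (secP_of_sec (c := fun _ => 0) continuous_id u1
          fun _ => le_rfl)).mono continuous_id fun l => by
            rw [zero_add, add_zero, Int.cast_neg, neg_neg, Int.cast_natCast])
      rw [zero_add, mul_one] at h1
      refine ((h1.bdP (a := (a, b)) trivial ⟨ha, hb'⟩).cmul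
        ((sec_hol u1 hb').cont.inv₀ (u2 b hb'))).congr ?_
      filter_upwards [(sec_hol u1 hb').ne_near (u2 b hb')] with z hz _
      exact ((mul_comm _ _).trans (mul_inv_cancel_right₀ hz _)).symm⟩
  obtain ⟨s, s1, s2⟩ := (hs'.mul continuous_id d2.1).isSec hS (lb_mul lM l3) fun l => by
    rw [Int.cast_natCast, add_neg_cancel]
    exact one_pos
  obtain ⟨a, ha⟩ := hD.cover x
  obtain ⟨y, y1, y2, y3⟩ := (((Hyp.of_div hO).freq x).and_eventually
    ((lb_near hD ha).and ((sec_hol ht ha).ne_near (hx a ha)))).exists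
  have nz := (nz_iff hD (fun a b => ht.change a b y) y2).2 y3
  refine ⟨_, s, lb_mul lM l3, ?_, s1, y, fun c hc => ?_⟩
  · rw [cls_mul lM l3, eM]
    refine (congrArg (_ + ·) (cls_mon hO _)).trans ?_
    abel
  · rw [s2 c y hc y1]
    exact mul_ne_zero (mul_ne_zero (nz _ hc.1.1) (d1.2 y y1 _ hc.1.2)) (d2.2 y y1 _ hc.2)

/-- **row BGN** -/
theorem bgnb : BGN := by
  intro d _ _ κ ι _ A m N L hA hL ⟨H, C, hH, pH, hF⟩ hB H' hH'
  obtain ⟨O, σ, hO⟩ := (Hyp.of_snc hA.snc).exists_div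
  obtain ⟨j, c, hP⟩ := hB O σ hO _ (lb_pow hH 2)
  obtain ⟨a, a0, hE⟩ := P285S.Mm.Ps.pse_pos hP hH pH 1
  obtain ⟨k, k0, hb⟩ := P285W.J.ScaleX.ex_bpf hH pH
  obtain ⟨-, ad, sm, -, kp⟩ := P285S.Ca.efa d A.Z hA.conn
  have l1 := lb_pow hH k
  obtain ⟨t, -, ht⟩ := kp _ (cls d L - cls d H' - ∑ l, (C * (-m l).toNat) • cls d (O l))
    (lb_pow l1 a) ((pH.pow k0).pow a0)
  have h1 := BgnB.key (i := t * k * a * j) (n := t * k * a * c) hA.snc hO hF
    (lb_pow (lb_pow l1 a) t)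
    (P285W.J.ScaleX.bpf_pow (P285W.J.ScaleX.bpf_pow hb a) t)
    (Eq.mp (congrArg (Ef A.Z) (by
      rw [cls_pow (lb_pow l1 a), cls_pow l1, cls_pow hH, cls_pow hH]
      simp only [mul_smul, ← Finset.smul_sum]
      module)) (sm _ (t * k) hE))
  refine ⟨t * k * a * j + 1, Nat.succ_pos _, Eq.mp (congrArg (Ef A.Z) ?_) (ad _ _ h1 ht)⟩
  rw [cls_pow (lb_pow l1 a), add_smul, one_smul]
  abel

end Vale.Agent.P270U
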