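import Vale.Agent.P270U.Defs
import Vale.Agent.P285U.Defs
import Vale.Agent.P285S.Tp.Blu
import Vale.Agent.P285S.Tp.Thr
import Vale.Agent.P285S.Tp.Nfp
import Vale.Agent.P285N.Xc.Cls
import Vale.Agent.P270G.Kd

/-!
# P270U, row BPA
-/

open Set Filter Function
open Vale.Agent.P272.K Vale.Agent.P285.H281.FD Vale.Agent.P281Z Vale.Agent.P280Z
open Vale.Agent.P277Z.Slc (lin)
open Vale.Agent.P277.HD (pull)
open Vale.Agent.P285N.Tp (mon LR)
open Vale.Agent.P285N.Tp.Lr (sec_mul)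
open Vale.Agent.P285N.Tp.En (sec_mon mon_ne)
open Vale.Agent.P285W.J

noncomputable section

namespace Vale.Agent.P270U

/-- row BPA -/
theorem bpa_of (hR : P285U.RESP) (hU : P270H.FPU) : BPA := by
  intro d T hT κ ι _ A m N L M g hB hb
  have := g.ok.conn
  obtain ⟨H, lH, pH⟩ := g.ok.prj
  have hG := Hyp.of_snc g.ok.snc
  obtain ⟨O₀, σ₀, hD⟩ := hG.exists_div
  have lO := lb_lin (fun l => (hD l).lb) fun _ => ((1 : ℕ) : ℤ)
  obtain ⟨j, -, D, t, d1, d2, d3, d4⟩ := hb _ (lb_mul lH lO)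
  have lE := lb_mul d1 lO
  have sE := sec_mul d3 (sec_mon hD fun _ => 1)
  obtain ⟨z, z1, z2⟩ := mem_closure_iff_nhds.1 (hG.dense d4.choose) _
    (P280Z.Ld.Fn.nz_near d1 d3 d4.choose_spec)
  obtain ⟨Y, ρ, r, G, O, σ, e, k, x, H', h1, hS, hc, hO, ho, e0, ce, lH', pH', cH⟩ :=
    hR d A.Z _ H _ ⟨this, g.ok.prj⟩ lE sE ⟨z, fun a ha =>
      mul_ne_zero (z1 a.1 ha.1) (mon_ne hD _ ha.2 fun l _ => z2 l)⟩ lH pH
  have pY : Y.Prj := ⟨H', lH', pH'⟩
  have hπ := h1.hol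
  have k0 : ∀ y ∈ off G, ρ y ∉ _ := fun y hy (c : ρ y ∈ {z | ¬ NZ _ _ z}) => c ((ho y).1 hy)
  have ko : ∀ y ∈ off G, ρ y ∈ off A.G := fun y hy l hl => by
    obtain ⟨a, ha⟩ := lE.cover (ρ y)
    refine (ho y).1 hy a ha (mul_eq_zero_of_right _ (Finset.prod_eq_zero (Finset.mem_univ l) ?_))
    rw [((hD l).leq _ _ (ha.2 l)).mem.2 hl, pow_one]
  obtain ⟨m', Ω, k1, kb, kn⟩ := P285S.Tp.blow g.ok h1 pY hS hc fun y hy => ⟨k0 y hy, ko y hy⟩
  have eP : cls d ((pull ρ A.P).pow 1) = hπ.pic (cls d A.P) := by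
    rw [cls_pow (hπ.lb g.ok.lb), one_smul, cls_pull hπ g.ok.lb]
  have kl : ∀ l, m' l < N := fun l => (k1.le l).lt_of_ne fun e => by
    obtain ⟨y, hy⟩ := (hc l).nonempty
    obtain ⟨j, j1, -⟩ := kb l e y hy
    exact (g.klt j).ne j1
  have cL : cls d (pull ρ L) = cls d ((pull ρ A.P).pow 1) + cls d (pull ρ M) := by
    rw [eP, cls_pull hπ g.lb, cls_pull hπ g.lbM, g.cl, map_add]
  have nM := P285S.Tp.nf_comp hπ g.ok.prj g.lbM g.nfM
  have cP : cls d ((pull ρ A.P).pow 1) = N • cls d (Bd.can d Y.X) + ∑ l, m' l • cls d (O l) :=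
    P285N.Xc.cls_eq d _ _ m' N (LR.mk Y ρ G m' N 1 Ω : LR A.Z A.P _).A O σ k1 hO
  have cj : j • cls d (pull ρ L) = cls d (pull ρ H) + ∑ l, e l • cls d (O l) := by
    rw [← ce, cls_pull hπ g.lb, cls_pull hπ lH, cls_pull hπ lE, ← map_nsmul, ← map_add,
      cls_mul d1 lO, d2, cls_mul lH lO]
    congr 1
    abel
  set i := ∑ l, (x l).natAbs with hi
  have xi : ∀ l, x l ≤ ((k + i) * e l : ℕ) := fun l => by
    have a1 : (x l).natAbs ≤ i :=
      Finset.single_le_sum (f := fun l => (x l).natAbs) (fun _ _ => Nat.zero_le _)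
        (Finset.mem_univ l)
    have a2 : i ≤ (k + i) * e l := le_trans (by omega) (Nat.le_mul_of_pos_right _ (e0 l))
    omega
  set b : Fin r → ℕ := fun l => ((((k + i) * e l : ℕ) : ℤ) - x l).toNat with hb'
  set y := ∑ l, b l + 1 with hy
  have l1 := lb_pow (hπ.lb lH) i
  have l2 := lb_pow (hπ.lb g.lbM) y
  refine ⟨Fin r, inferInstance, (LR.mk Y ρ G m' N 1 Ω : LR A.Z A.P _).A, m', ρ, _, O, σ,
    (k + i) * j + y, y, y * N, fun l => y * (m' l).toNat + b l,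
    H'.mul (((pull ρ H).pow i).mul ((pull ρ M).pow y)), h1,
    ⟨k1, kl, hπ.lb g.lb, P285S.Tp.nf_comp hπ g.ok.prj g.lb g.nef, hπ.lb g.lbM, nM, cL⟩,
    hU d κ ι (Fin r) ι A (LR.mk Y ρ G m' N 1 Ω : LR A.Z A.P _).A m m' ρ _ L ⟨this, g.ok.prj⟩ pY
      g.ok.snc hS h1 g.lb (fun y hy => ⟨ko y hy, h1.imm (k0 y hy)⟩) kn hB,
    hc, hO, by omega, Nat.mul_pos (by omega) g.ok.pos, fun l => ?_, lb_mul lH' (lb_mul l1 l2),
    hT.kp Y _ (lb_mul lH' (lb_mul l1 l2)) ?_, ?_⟩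
  · have a1 : b l ≤ ∑ l, b l :=
      Finset.single_le_sum (f := b) (fun _ _ => Nat.zero_le _) (Finset.mem_univ l)
    have a2 : (m' l).toNat + 1 ≤ N := by
      have := kl l
      have := g.ok.pos
      omega
    have a3 := Nat.mul_le_mul_left y a2
    show y * (m' l).toNat + b l ≤ y * N
    rw [mul_add] at a3
    omega
  · rw [hT.c1.mul Y _ _ lH' (lb_mul l1 l2), hT.c1.mul Y _ _ l1 l2, hT.c1.pow Y _ _ (hπ.lb lH),
      hT.c1.pow Y _ _ (hπ.lb g.lbM), hT.c1.pull hπ H lH]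
    exact P285S.B2.kc_nf_add hT (hT.c1.pos Y H' lH' pH') (nf_add hT
      (nf_smul hT (Nat.cast_nonneg _) (nf_pull hT hπ (kc_nf hT (hT.c1.pos _ H lH pH))))
      (nf_smul hT (Nat.cast_nonneg _) (nf_of hT pY (hπ.lb g.lbM) nM)))
  · have s : ∑ l, (y * (m' l).toNat + b l) • cls d (O l) =
        y • ∑ l, m' l • cls d (O l) + ∑ l, (y * (-m' l).toNat) • cls d (O l) +
          (k + i) • ∑ l, e l • cls d (O l) - ∑ l, x l • cls d (O l) := by
      rw [Finset.smul_sum, Finset.smul_sum, ← Finset.sum_add_distrib, ← Finset.sum_add_distrib,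
        ← Finset.sum_sub_distrib]
      refine Finset.sum_congr rfl fun l _ => ?_
      simp only [← natCast_zsmul, smul_smul, ← add_smul, ← sub_smul]
      congr 1
      have a1 : (b l : ℤ) = ((k + i) * e l : ℕ) - x l := Int.toNat_of_nonneg (sub_nonneg.2 (xi l))
      have a2 : ((m' l).toNat : ℤ) = m' l + (-m' l).toNat := by omega
      push_cast at a1 ⊢
      rw [a1, a2]
      ring
    show ((k + i) * j + y) • cls d (pull ρ L) + ∑ l, (y * (-m' l).toNat) • cls d (O l) =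
      (y * N) • cls d (Bd.can d Y.X) + ∑ l, (y * (m' l).toNat + b l) • cls d (O l) + cls d _
    rw [s, cls_mul lH' (lb_mul l1 l2), cls_mul l1 l2, cls_pow (hπ.lb lH), cls_pow (hπ.lb g.lbM),
      cH, add_smul, mul_smul, cj, cL, cP]
    module

end Vale.Agent.P270U
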