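import Vale.Agent.P270U.Top
import Vale.Agent.P270V.Defs
import Vale.Agent.P285U.Defs2

/-!
# P270U: the base point free theorem, the base
-/

open Vale.Agent.P281Z

namespace Vale.Agent.P270U

theorem bpx_fg (h : P285U.BPFG) : BPX := by
  intro d T hT κ ι _ A m N L M g bp bg
  obtain ⟨H, lH, pH⟩ := id g.ok.prj
  obtain ⟨j, hj, e⟩ := bg H lH
  refine ⟨A.Z, _, _, modif_id, L, 1, g.ok.prj, g.lb, h d κ ι A m N L M g bp ⟨j, H, hj, lH, pH, e⟩,
    one_pos, ?_⟩
  rw [Nat.cast_one, one_smul]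
  exact hT.c1.pull (modif_id (n := d) (X := A.Z.X)).hol _ g.lb

theorem bgsv_of (md : MOD) (tru : TRU) (rel : P270V.REL) (bgn : BGN) (bp : BPX) : P270V.BGS :=
  bgs2_of md tru rel bgn bp

end Vale.Agent.P270U
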