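import Vale.Agent.P270U.Defs

/-!
# P270U: the version for the bundles `i C + j M`
-/

open Set Function
open Vale.Agent.P272.K Vale.Agent.P285.H281.FD Vale.Agent.P281Z Vale.Agent.P280Z
open Vale.Agent.P277.HD (pull)
open Vale.Agent.P285N.Tp (Rd FLC Eff)
open Vale.Agent.P285N.St (SubPair Iso Psef)
open Vale.Agent.P285W.J (Tr)
open Vale.Agent.P285W.Bs (Cp)
open Vale.Agent.P285S (Ef Pse)
open Vale.Agent.P270G (ForP)
open Vale.Agent.P270H (Gf)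

noncomputable section

namespace Vale.Agent.P270U

/-- ROW REL2: from the fibres to the total space -/
def REL2 : Prop := ∀ d, ForP d fun T _ _ _ A m N => FLC T → ∀ (L M : Bd A.Z.X) (a r : ℕ),
  Gf A m N L M → Dm A.Z (a • cls d L) r → d ≤ r + 4 → Neg d (Tr T A.Z (T.c1 A.Z L)) →
  Bgn A m L

/-- **BGS2**: the base -/
def BGS2 : Prop := ∀ d, ForP d fun T _ _ _ A m N => FLC T → ∀ (L M : Bd A.Z.X) (a r : ℕ),
  Gf A m N L M → Mp A.Z (L.pow a) r → d ≤ r + 4 → Neg d (Tr T A.Z (T.c1 A.Z L)) →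
  P270H.Sm T A.Z (T.c1 A.Z L)

/-- ROW MPU2: the map on a model of the base -/
def MPU2 : Prop := P270H.ForU fun T w e V Q M U C _ => ∀ (L₀ : Bd V.X) (i j r z : ℕ) (W : Mf w)
  (τ : W.X → M.Y.X) (S : Set M.Y.X) (hτ : Modif w τ S) (L : Bd W.X), IsLB (w + (e + 1)) L₀ →
  Iso (w + (e + 1)) Q.L (C.mul L₀) → Psef (w + (e + 1)) C → Kp V ((C.pow i).mul (L₀.pow j)) r →
  W.Prj → IsLB w L → 0 < z → T.c1 W L = (z : ℝ) • T.pull hτ.hol (T.c1 M.Y U.D) →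
  ∃ a, Mp W (L.pow a) r

/-- ROW MP02: the map on a model of the total space -/
def MP02 : Prop := ∀ (n i j r k : ℕ) (V Z : Mf n) (π : Z.X → V.X) (S : Set V.X)
  (C M L : Bd V.X), Cp V → Z.Prj → Modif n π S → IsLB n C → IsLB n M → IsLB n L → 0 < k →
  Iso n L (C.mul M) → Psef n C → P285N.Tp.Nf V M → Kp V ((C.pow i).mul (M.pow j)) r →
  ∃ a, Mp Z (((pull π L).pow k).pow a) r

/-- **KG2** -/
def KG2 : Prop := ∀ (n d r i j : ℕ) (V : Mf n) (Q : Rd V) (D : Bd V.X) (t : D.ι → V.X → ℂ) (q : ℕ)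
  (C M : Bd V.X), Q.Ok → SubPair n Q.E Q.s D t q C → IsLB n M → P285N.Tp.Nf V M →
  Iso n Q.L (C.mul M) → Eff n C → Kp V ((C.pow i).mul (M.pow j)) r → n ≤ d + r + 4 →
  ¬ Neg n (P285W.Bs.Gd Co.ct V (Co.ct.c1 V Q.L) d) → NumSemiample n Q.L

end Vale.Agent.P270U
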