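import Vale.Agent.P270U.Defs
import Vale.Agent.P270H.Cnn
import Vale.Agent.P270H.Fpu

/-!
# P270U: the pair on a given model
-/

open Set Filter Function
open Vale.Agent.P272.K Vale.Agent.P285.H281.FD Vale.Agent.P281Z Vale.Agent.P280Z
open Vale.Agent.P277.HD (pull)
open Vale.Agent.P285N
open Vale.Agent.P285N.Tp (LR)

noncomputable section

namespace Vale.Agent.P270U

theorem modb : MOD := by
  intro d T _ κ ι _ A m N L M W τ S h hτ hW
  have := h.ok.conn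
  have hB := hτ.thin.union (snc_thin_off h.ok.snc)
  have hZ := hτ.pre_thin hB
  obtain ⟨I, hI, -⟩ := Rs.idl d W _ hZ.1
  rw [← hI] at hZ
  obtain ⟨R⟩ := Rs.res d d W univ I an_univ
    (subM_open (by rw [← compl_eq_univ_sdiff]; exact hZ.closed.isOpen_compl))
  have h0 : Modif d R.π _ := ⟨hZ, R.ovr⟩
  have h1 := hτ.comp_of h0 hB subset_union_left (hI ▸ image_preimage_subset _ _)
  have k : ∀ y ∈ off R.G, τ (R.π y) ∉ S ∪ (off A.G)ᶜ := fun y hy k =>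
    ((R.bad y).1 (hI.ge k)).elim hy
  have k' : ∀ y ∈ off R.G, τ (R.π y) ∈ off A.G := fun y hy => not_not.1 fun c => k y hy (.inr c)
  have hY := R.prj hW
  obtain ⟨m', Ω, h2, h3, h4⟩ := P285S.Tp.blow h.ok h1 hY R.snc R.conn fun y hy => ⟨k y hy, k' y hy⟩
  have hπ := h1.hol
  set A' := (LR.mk R.V (fun y => τ (R.π y)) R.G m' N 1 Ω : LR A.Z A.P _).A
  have e0 : cls d A'.P = cls d (pull (fun y => τ (R.π y)) A.P) := by
    show cls d ((pull (fun y => τ (R.π y)) A.P).pow 1) = _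
    rw [cls_pow (hπ.lb h.ok.lb), one_smul]
  have e := e0.trans (cls_pull hπ h.ok.lb)
  refine ⟨_, inferInstance, A', m', R.π, _, h0, ⟨⟨h2, fun l => (h2.le l).lt_of_ne fun c => ?_,
    hπ.lb h.lb, (P285S.Tp.nf_comp hπ h.ok.prj h.lb h.nef :), hπ.lb h.lbM,
    (P285S.Tp.nf_comp hπ h.ok.prj h.lbM h.nfM :), ?_⟩, ?_, ?_⟩, e0⟩
  · obtain ⟨y, hy⟩ := (R.conn l).nonempty
    obtain ⟨j, k1, -⟩ := h3 l c y hy
    exact (h.klt j).ne k1
  · refine (cls_pull hπ h.lb).trans (Eq.trans ?_ (congrArg₂ _ e (cls_pull hπ h.lbM)).symm)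
    rw [h.cl, map_add]
  · rw [e]
    exact P270H.CnnX.pse_pull h1 h.ps
  · exact P270H.fpu d κ ι _ ι A A' m m' _ _ L ⟨this, h.ok.prj⟩ hY h.ok.snc R.snc h1 h.lb
      (fun y hy => ⟨k' y hy, h1.imm (k y hy)⟩) h4 h.bp

end Vale.Agent.P270U
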