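import Vale.Agent.P270U.Defs2
import Vale.Agent.P270U.Mp0

/-!
# P270U: the map on a model of the total space (row MP02)
-/

open scoped Topology
open Set Filter Function
open Vale.Agent.P272.K Vale.Agent.P285.H281.FD Vale.Agent.P281Z Vale.Agent.P280Z
open Vale.Agent.P277.HD (pull)
open Vale.Agent.P285N.St (Iso Psef)
open Vale.Agent.P285S (Ef Pse)

namespace Vale.Agent.P270U

namespace Mp02H

variable {n : ℕ} {V Z : Mf n} {π : Z.X → V.X} {S : Set V.X} {C M L : Bd V.X}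

theorem cls_iso (hL : IsLB n L) (hM : IsLB n M) (h : Iso n L M) : cls n L = cls n M := by
  obtain ⟨u, u1, u2⟩ := h
  exact (cls_eq hL hM).2 ⟨u, fun a b x ha hb e he => (u1 a b e x he ha hb).1.analyticAt,
    fun a b x ha hb => (u1 a b _ x (P277Z.at_chart x) ha hb).2, u2⟩

/-- pseudo-effective plus nef -/
theorem pse_mix (hV : V.Prj) (hC : IsLB n C) (hM : IsLB n M) (h1 : Psef n C)
    (h2 : P285N.Tp.Nf V M) (x y : ℕ) : Pse V (x • cls n C + y • cls n M) := by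
  obtain ⟨H, hH, pH⟩ := hV
  refine ⟨cls n H, fun k => ?_⟩
  have l1 := lb_mul (lb_pow hM (k * y)) hH
  obtain ⟨j, hj, s, s1, b, z, hb, s2⟩ := h1 _ l1 (h2 H hH pH (k * y)) (k * x)
  have l2 := lb_mul (lb_pow hC (k * x)) l1
  refine ⟨j, hj, _, s, lb_pow l2 j, ?_, s1, z,
    (nz_iff (lb_pow l2 j) (fun a b => s1.change a b z) hb).2 s2⟩
  rw [cls_pow l2, cls_mul (lb_pow hC _) l1, cls_mul (lb_pow hM _) hH, cls_pow hC, cls_pow hM,
    smul_add k, smul_smul, smul_smul, add_assoc]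

theorem pse_pull (hπ : Modif n π S) {β : Pic n V.X} (h : Pse V β) : Pse Z (hπ.hol.pic β) := by
  obtain ⟨η, hη⟩ := h
  refine ⟨hπ.hol.pic η, fun k => (hη k).imp fun j a => ⟨a.1, ?_⟩⟩
  simpa only [map_nsmul, map_add] using P285S.Tp.ef_pull hπ a.2

theorem pse_ef [ConnectedSpace V.X] {β γ : Pic n V.X} (h : Pse V β) (h' : Ef V γ) :
    Pse V (β + γ) := by
  obtain ⟨η, hη⟩ := h
  refine ⟨η, fun k => (hη k).imp fun j a => ⟨a.1, ?_⟩⟩
  have := P285S.Tp.ef_add a.2 (P285S.Tp.ef_smul h' (j * k))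
  rwa [mul_smul, ← smul_add, add_right_comm, ← smul_add] at this

end Mp02H

theorem mp02_of (h1 : MPA) : MP02 := by
  intro n i j r k V Z π S C M L hV hZ hπ hC hM hL hk hi ps nf ⟨J, s, hJ, s1, s2⟩
  have := hV.conn
  have cZ := hπ.conn
  have h0 := lb_mul (lb_pow hC i) (lb_pow hM j)
  have hB := lb_pow h0 J
  have pB := hπ.hol.lb hB
  have pL := hπ.hol.lb hL
  obtain ⟨X₁, u, S₁, Q, γ, a1, a2, a3, a4, a5⟩ := h1 n r Z (pull π _) _ ⟨cZ, hZ⟩ pB
    (fun b => hπ.hol.sec (s1 b)) (Mp0H.rk_pull hπ hB s1 s2)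
  have c1 := a1.conn
  obtain ⟨k, rfl⟩ := Nat.exists_eq_add_of_lt hk
  have e1 := Mp02H.pse_ef (Mp02H.pse_pull a1 (Mp02H.pse_pull hπ (Mp02H.pse_mix hV.prj hC hM ps nf
    (J * (k * (i + j) + j)) (J * (k * (i + j) + i))))) a5
  refine ⟨J * (i + j), X₁, u, S₁, a1, a2, Q.P, Q.H, γ, Q.conn, Q.lb, Q.pos, a3, a4, ?_⟩
  rw [cls_pull a1.hol pB, cls_pull hπ.hol hB, ← add_sub_assoc, ← map_add, ← map_add, cls_pow h0,
    cls_mul (lb_pow hC i) (lb_pow hM j), cls_pow hC, cls_pow hM] at e1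
  rw [cls_pull a1.hol (lb_pow (lb_pow pL _) _), cls_pow (lb_pow pL _), cls_pow pL,
    cls_pull hπ.hol hL, Mp02H.cls_iso hL (lb_mul hC hM) hi, cls_mul hC hM, ← map_nsmul,
    ← map_nsmul, show (J * (i + j)) • (0 + k + 1) • (cls n C + cls n M) =
      (J * (k * (i + j) + j)) • cls n C + (J * (k * (i + j) + i)) • cls n M +
        J • (i • cls n C + j • cls n M) by module]
  exact e1

end Vale.Agent.P270U
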