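import Vale.Agent.P270U.Defs
import Vale.Agent.P281Z.En.Merg
import Vale.Agent.P281Z.Rs.All
import Vale.Agent.P281Z.Pb.Ps
import Vale.Agent.P281Z.Pb.Api

/-!
# P270U, row MPA: the map given by the sections
-/

open scoped Topology
open Set Filter Function
open Vale.Agent.P272.K Vale.Agent.P285.H281.FD Vale.Agent.P281Z
open Vale.Agent.P277Z (Hol)
open Vale.Agent.P277Z.Slc (Ind dd)
open Vale.Agent.P277.HD (pull)

noncomputable section

namespace Vale.Agent.P270U

namespace MpabH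

variable {n p : ℕ} {X : Mf n} {Y : Mf p} {f : X.X → Y.X} {x : X.X}

theorem sbm {h : Fin p → Y.X → ℂ} (hf : HolA n p f x) (hh : ∀ a, Hol p (h a) (f x))
    (hi : Ind n (fun a y => h a (f y)) x) : Sbm n p f x := fun e e' he he' => by
  have k := (P277Z.Slc.ind_iff_surj _).1 (hi.2 e he)
  rw [show (ContinuousLinearMap.pi fun a => dd (fun y => h a (f y)) e x) =
    (ContinuousLinearMap.pi fun a => dd (h a) e' (f x)).comp (df f e e' x) from
      ContinuousLinearMap.ext fun v => funext fun a =>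
        DFunLike.congr_fun (dd_comp (hh a) hf he he') v] at k
  rw [ContinuousLinearMap.coe_comp] at k
  exact k.of_comp_left ((LinearMap.injective_iff_surjective
    (f := (ContinuousLinearMap.pi fun a => dd (h a) e' (f x)).toLinearMap)).2 k.of_comp)

theorem onto [ConnectedSpace Y.X] (hf : HolM n p f) (h : Sbm n p f x) : Surjective f := by
  by_contra c
  obtain ⟨y, y1, y2⟩ := mem_closure_iff_nhds.1 (((rem n p X Y f univ hf an_univ).thin
    fun e => c (range_eq_univ.1 (image_univ ▸ e))).dense (f x)) _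
      (h.map_nhds (hf.at x) ▸ image_mem_map univ_mem : f '' univ ∈ nhds (f x))
  exact y2 y1

end MpabH

/-- **MPA** -/
theorem mpab : MPA := by
  intro n r X B s cX hB hs ⟨x, _, a, ha, h0, hi⟩
  obtain ⟨P⟩ := Pb.psex r
  obtain ⟨V, π, S, g, ε, hM, hg, -, hp, h⟩ :=
    En.merg_of Rs.res n r X B s P cX.conn hB hs ⟨0, a, x, ha, h0⟩
  have hπ := hM.hol
  obtain ⟨z, z1, z2, z3, z4⟩ := ((hM.1.freq x).and_eventually ((lb_near hB ha).and
    (((sec_hol (hs 0) ha).ne_near h0).and hi.near))).exists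
  obtain ⟨y, rfl⟩ := hM.surj z
  obtain ⟨c, hc⟩ := P.lb.cover (g y)
  obtain ⟨-, e1, e2, -⟩ := h a c y z2 hc
  have l1 := hπ.lb hB
  have l2 := hg.lb P.lb
  have lD := lb_mul l1 (lb_zp l2 (-1))
  have sD : IsSec n ((pull π B).mul (zp (pull g P.H) (-1))) fun b => ε b.1 b.2 :=
    isSec_of (fun b w hw => (h b.1 b.2 w hw.1 hw.2).1) fun b b' w k k' => by
      have k1 := (h b.1 b.2 w k.1 k.2).2.2.2 b'.1 b'.2 k'.1 k'.2
      have k2 := P.lb.ne_zero _ _ _ k.2 k'.2
      change _ = B.g b.1 b'.1 (π w) * P.H.g b.2 b'.2 (g w) ^ (-1 : ℤ) * _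
      rw [zpow_neg_one, mul_right_comm, ← k1, mul_inv_cancel_right₀ k2]
  have := P.conn
  refine ⟨V, π, S, P, g, hM, hp cX.prj, hg, MpabH.onto hg (x := y) (MpabH.sbm
    (h := fun (b : Fin r) q => P.x c q b.succ / P.x c q 0) (hg.at y)
    (fun b => (P.xhol hc _).div (P.xhol hc _) fun k => z3 (by rw [e2, k, mul_zero]))
    (ind_congr ((hM.sbm z1).ind (hπ.at y) z4) fun b => ?_)), _, _, lD, ?_, sD, y,
    (nz_iff lD (fun b b' => sD.change b b' y) (a := (a, c)) ⟨z2, hc⟩).2 (e1 z1)⟩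
  · filter_upwards [hπ.cont.continuousAt.eventually (lb_near hB z2),
      hg.cont.continuousAt.eventually (lb_near P.lb hc),
      hπ.cont.continuousAt.eventually (hM.1.closed.isOpen_compl.mem_nhds z1)] with w k1 k2 k3
    obtain ⟨-, m1, m2, -⟩ := h a c w k1 k2
    rw [m2, m2, mul_div_mul_left _ _ (m1 k3)]
  · rw [cls_mul l1 (lb_zp l2 _), cls_zp l2, neg_one_zsmul, sub_eq_add_neg]

end Vale.Agent.P270U
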