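import Vale.Agent.P270U.Defs2
import Vale.Agent.P270U.Mp0
import Vale.Agent.P270H.Psb
import Vale.Agent.P270H.Top
import Vale.Agent.P285T.Cb.Hlp
import Vale.Agent.P285N.Tp.Hod
import Vale.Agent.P285S.Bs2.Big

/-!
# P270U: the map on a model of the base (row MPU2)
-/

open Set Filter Function
open Vale.Agent.P272.K Vale.Agent.P285.H281.FD Vale.Agent.P281Z Vale.Agent.P280Z
open Vale.Agent.P277.HD (pull)
open Vale.Agent.P285S (Ef Pse)
open Vale.Agent.P285S.Tp (ef_add ef_smul)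
open Vale.Agent.P285W.J (Nf nf_add nf_smul nf_pull)
open Vale.Agent.P285W.Bs (Cp)
open Vale.Agent.P285T.Cb.Wpr (ex_cls ex_cp)

noncomputable section

namespace Vale.Agent.P270U

namespace Mu44

variable {n m : ℕ} {V : Mf n} {Y : Mf m} {β γ : Pic n V.X}

theorem pse_pull {f : Y.X → V.X} (hf : HolM m n f) (sf : Surjective f) (h : Pse V β) :
    Pse Y (hf.pic β) := by
  obtain ⟨η, h⟩ := h
  refine ⟨hf.pic η, fun k => ?_⟩
  obtain ⟨j, hj, D, t, h1, h2, h3, x, h4⟩ := h k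
  obtain ⟨y, rfl⟩ := sf x
  exact ⟨j, hj, _, _, hf.lb h1, by rw [cls_pull hf h1, h2, map_nsmul, map_add, map_nsmul],
    hf.sec h3, y, h4⟩

theorem pse_smul (h : Pse V β) (a : ℕ) : Pse V (a • β) :=
  h.imp fun _ h k => by rw [← mul_smul]; exact h _

theorem pse_add [ConnectedSpace V.X] (h : Pse V β) (h' : Pse V γ) : Pse V (β + γ) := by
  obtain ⟨η, h⟩ := h
  obtain ⟨η', h'⟩ := h'
  refine ⟨η + η', fun k => ?_⟩
  obtain ⟨j, hj, e⟩ := h k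
  obtain ⟨j', hj', e'⟩ := h' k
  refine ⟨j' * j, Nat.mul_pos hj' hj, ?_⟩
  have := ef_add (ef_smul e j') (ef_smul e' j)
  rwa [← mul_smul, ← mul_smul, mul_comm j, ← smul_add, add_add_add_comm, ← smul_add] at this

theorem pse_nf {T : CT} (hT : T.OK) (hV : Cp V) {R : Bd V.X} (hR : IsLB n R)
    (h : Nf T V (T.c1 V R)) : Pse V (cls n R) := by
  have := hV.conn
  obtain ⟨A, lA, pA⟩ := hV.prj
  refine ⟨cls n A, fun k => ?_⟩
  have l1 := lb_mul (lb_pow hR k) lA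
  rw [← cls_pow hR, ← cls_mul (lb_pow hR k) lA]
  refine P270H.PsbH.ef_kc hT l1 ?_
  rw [hT.c1.mul _ _ _ (lb_pow hR k) lA, hT.c1.pow _ _ _ hR, add_comm]
  exact P285S.B2.kc_nf_add hT (hT.c1.pos _ _ lA pA) (nf_smul hT k.cast_nonneg h)

/-- the map on a given model -/
theorem mp_up {T : CT} (hT : T.OK) {r : ℕ} {W : Mf n} {τ : W.X → V.X} {S : Set V.X}
    (hτ : Modif n τ S) (hV : Cp V) (pW : W.Prj) {E F : Bd V.X} {L : Bd W.X} (lE : IsLB n E)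
    (lF : IsLB n F) (lL : IsLB n L) (pF : Pse V (cls n F)) {ν : T.H V} (hν : Nf T V ν)
    (e : T.c1 W L = T.pull hτ.hol (T.c1 V E + T.c1 V F + ν)) (h : Mp V E r) : Mp W L r := by
  obtain ⟨W', τ', S', hτ', pW', Y, H, g, cY, lH, pH, hg, sg, ps⟩ := h
  have := hV.conn
  have := hτ.conn
  obtain ⟨X, u, f, hu, hf, cm, -, pX⟩ := P285T.Cb.graphp W V W' τ τ' _ hτ.hol
    (hτ.pre_thin hτ'.thin).2 hτ'
  have sf : Surjective f := by
    rw [← range_eq_univ, ← (isCompact_range hf.cont).isClosed.closure_eq]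
    refine Dense.closure_eq (hτ'.thin_pre.2.mono fun v hv => ?_)
    obtain ⟨x, hx⟩ := (hτ.surj.comp hu.surj) (τ' v)
    exact ⟨x, hτ'.inj hv ((cm x).symm.trans hx)⟩
  have := hu.conn
  have h1 := hτ.hol.comp hu.hol
  have h2 := hg.comp hf
  have pX := pX pW pW'
  refine ⟨X, u, _, hu, pX, Y, H, fun x => g (f x), cY, lH, pH, h2, sg.comp sf, ?_⟩
  obtain ⟨R, lR, cR⟩ := ex_cls (cls n (pull u L) - cls n (pull f (pull τ' E)) -
    cls n (pull (fun x => τ (u x)) F))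
  obtain ⟨c, k⟩ := ex_cp hT X
  have n1 : T.c1 X R = T.pull h1 ν := by
    rw [← k _ lR, cR, map_sub, map_sub, k _ (hu.hol.lb lL), k _ (hf.lb (hτ'.hol.lb lE)),
      k _ (h1.lb lF), hT.c1.pull hu.hol _ lL, hT.c1.pull hf _ (hτ'.hol.lb lE),
      hT.c1.pull hτ'.hol _ lE, hT.c1.pull h1 _ lF, e, ← hT.rg.pull_comp hf hτ'.hol h1 cm,
      ← hT.rg.pull_comp hu.hol hτ.hol h1 fun _ => rfl, map_add, map_add]
    abel
  have p1 := pse_add (pse_add (pse_nf hT ⟨inferInstance, pX⟩ lR (n1 ▸ nf_pull hT h1 hν))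
    (pse_pull h1 (hτ.surj.comp hu.surj) pF)) (pse_pull hf sf ps)
  rw [cR, ← cls_pull h1 lF, sub_add_cancel, map_sub, ← cls_pull hf (hτ'.hol.lb lE),
    ← cls_pull hf (hg.lb lH), sub_add_sub_cancel] at p1
  exact p1

end Mu44

open Mu44

/-- **MPU2** -/
theorem mpu2_of (hA : MPA) (hB : MPB) : MPU2 := by
  intro T hT hF w e V Q M U C E hU L₀ i j r z W τ S hτ L l0 iso ps ⟨J, s, hJ, s1, s2⟩ pW lL hz cL
  obtain ⟨S₀, hπ⟩ := hU.md
  have cX := hU.fb.conn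
  have cY : Cp M.Y := ⟨hU.fb.connY, hU.prj⟩
  have pX : M.X.Prj := hU.ok.prj
  have lC := hU.lbC
  have lD := hU.lbD
  have lE := hU.lbE
  have lQ : IsLB _ Q.L := hU.q.bir.res.lbL
  have lP : IsLB _ U.P := hU.ok.lb
  have l1 := lb_mul (lb_pow lC i) (lb_pow l0 j)
  have l2 := lb_pow l1 J
  have lB := hπ.hol.lb l2
  have hf := hU.fb.fibn.hol
  obtain ⟨X, u, S₁, P, γ, hu, pX₁, g1, g2, g3⟩ := hA _ r M.X _ _ ⟨cX, pX⟩ lB
    (fun b => hπ.hol.sec (s1 b)) (Mp0H.rk_pull hπ l2 s1 s2)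
  obtain ⟨E', lE', cE'⟩ := ex_cls ((i * J) • cls w E + (j * J) • (cls w U.D - cls w E))
  obtain ⟨cy, ky⟩ := ex_cp hT M.Y
  obtain ⟨cx, kx⟩ := ex_cp hT M.X
  have e1 : T.c1 M.Y E' = ((i : ℝ) * J) • T.c1 M.Y E +
      ((j : ℝ) * J) • (T.c1 M.Y U.D - T.c1 M.Y E) := by
    rw [← ky _ lE', cE', map_add, map_nsmul, map_nsmul, map_sub, ky _ lE, ky _ lD,
      ← Nat.cast_smul_eq_nsmul ℝ, ← Nat.cast_smul_eq_nsmul ℝ, Nat.cast_mul, Nat.cast_mul]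
  have e2 : T.c1 M.X U.P = (U.k : ℝ) • T.pull hπ.hol (T.c1 V C) := by
    rw [← kx _ lP, hU.cl, map_nsmul, kx _ (hπ.hol.lb lC), hT.c1.pull hπ.hol _ lC,
      Nat.cast_smul_eq_nsmul]
  have m1 := hB T hT hF _ w r (U.c * U.k) X M.Y _ (hU.fb.fibn.modif hu) _ E' P γ ⟨hu.conn, pX₁⟩ cY
    (hu.hol.lb lB) lE' (Nat.mul_pos hU.cp hU.kp) (by
      rw [hT.rg.pull_comp hu.hol hf _ fun _ => rfl, e1, hT.c1.pull hu.hol _ lB,
        hT.c1.pull hπ.hol _ l2, hT.c1.pow _ _ _ l1, hT.c1.mul _ _ _ (lb_pow lC i) (lb_pow l0 j),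
        hT.c1.pow _ _ _ lC, hT.c1.pow _ _ _ l0, ← map_smul]
      congr 1
      rw [map_add, map_smul, map_smul, map_sub, hU.cD, hU.cE, e2, hT.c1.pow _ _ _ (hπ.hol.lb lQ),
        hT.c1.pull hπ.hol _ lQ, P285N.Tp.HodH.c1_iso hT lQ (lb_mul lC l0) iso,
        hT.c1.mul _ _ _ lC l0]
      simp only [map_add, map_smul, Nat.cast_mul]
      module) g1 g2 g3
  have pE := P270H.psb T hT _ w M.X M.Y M.f hf U.P E U.c ⟨cX, pX⟩ cY hU.fb.fibn.surj lP lE hU.cE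
    (hU.cl ▸ P270H.pse_up hπ hU.q.prj lC ps U.k)
  have z1 : (0 : ℝ) ≤ (z - 1) * ((i + j) * J) :=
    mul_nonneg (sub_nonneg.2 (Nat.one_le_cast.2 hz)) (by positivity)
  refine ⟨(i + j) * J, mp_up hT hτ cY pW lE' (lb_pow lE (j * J)) (lb_pow lL _)
    (cls_pow lE (j * J) ▸ pse_smul pE _) (nf_add hT (nf_smul hT z1
      (P285N.Tp.NumH.nf_c1 hT lD hU.prj hU.nfD))
      (nf_smul hT (r := i * J) (by positivity) hU.nfE)) ?_ m1⟩
  rw [hT.c1.pow _ _ _ lL, cL, hT.c1.pow _ _ _ lE, e1, ← map_smul, ← map_smul]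
  congr 1
  push_cast
  module

end Vale.Agent.P270U
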