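import Vale.Agent.P270V.Rel

/-!
# P270U: row REL
-/

open Vale.Agent.P281Z Vale.Agent.P285S

namespace Vale.Agent.P270U

theorem rel_of2 (h : REL2) : REL := by
  intro n T hT κ ι _ A m N fl L M a r hA ⟨Y, H, g, cY, lH, pH, hg, sg, η, ps⟩
  refine h n T hT κ ι A m N fl L M a r hA ⟨Y, H, g, cY, lH, pH, hg, sg, ?_⟩
  have := hA.ok.conn
  obtain ⟨k, k0, e⟩ := hA.ps.choose_spec 0
  obtain ⟨η', ps'⟩ := P285T.Cb.pse_nf hA.ok.prj hA.lbM hA.nfM (Tp.ef_smul e 0)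
  refine ⟨η + η', fun k => ?_⟩
  obtain ⟨j, j0, e⟩ := ps k
  obtain ⟨j', j1, e'⟩ := ps' (k * a)
  refine ⟨j' * j, Nat.mul_pos j1 j0, (congrArg (Ef A.Z) ?_).mp
    (Tp.ef_add (Tp.ef_smul e j') (Tp.ef_smul e' j))⟩
  rw [hA.cl]
  module

theorem rel_of (fb : FIBD) : REL := rel_of2 (P270V.rel2_of fb)

end Vale.Agent.P270U
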