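import Vale.Agent.P270U.Defs2
import Vale.Agent.P285S.Mp.Nvso
import Vale.Agent.P285S.Mm.Mkpr
import Vale.Agent.P285S.Tp.Nfp
import Vale.Agent.P285S.Tp.Thr
import Vale.Agent.P285N.Xc.Cls
import Vale.Agent.P281Z.Ri.One
import Vale.Agent.P281Z.Ri.Tools
import Vale.Agent.P281Z.Lf.Rech
import Vale.Agent.P281Z.St.All
import Vale.Agent.P281Z.Nt.Neat

/-!
# P270U, row REL2: from the fibres to the total space
-/

open Set Filter
open Vale.Agent.P272.K Vale.Agent.P285.H281.FD Vale.Agent.P281Z Vale.Agent.P285N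
open Vale.Agent.P277Z.Slc (IsDiv Snc lin isLB_can)
open Vale.Agent.P277.HD (pull)
open Vale.Agent.P285S Vale.Agent.P285S.Mm.Ps.Nvso
open Vale.Agent.P285N.Tp.Lr (rel rel_lb rel_sec)

namespace Vale.Agent.P270U

namespace Rel61

theorem can_imm {d : ℕ} {C F : Mf d} {j : C.X → F.X} (hj : HolM d d j) (h : ∀ z, Imm d d j z) :
    cls d (Bd.can d C.X) = hj.pic (cls d (Bd.can d F.X)) := by
  have k := cls_sec (rel_lb hj) (rel_sec hj) fun z a ha =>
    (imm_iff_det (hj.at z) ha.1 ha.2).1 (h z)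
  rw [rel, cls_mul isLB_can (lb_zp (hj.lb isLB_can) _), cls_zp (hj.lb isLB_can), neg_one_zsmul,
    add_neg_eq_zero] at k
  rw [k, cls_pull hj isLB_can]

theorem thin {n : ℕ} {V : Mf n} [ConnectedSpace V.X] {E : Bd V.X} {s : E.ι → V.X → ℂ}
    (hE : IsLB n E) (hs : IsSec n E s) {x : V.X} (h0 : NZ E s x) : Thin n {x | ¬ NZ E s x} := by
  have hA : An n {x | ¬ NZ E s x} := fun y => (hE.cover y).elim fun a ha =>
    ⟨1, fun _ => s a, fun _ => sec_hol hs ha, (lb_near hE ha).mono fun z k =>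
      (nz_iff hE (fun a b => hs.change a b z) k).not.trans (by simp)⟩
  exact hA.thin fun e => eq_univ_iff_forall.1 e x h0

end Rel61

open Rel61

/-- row REL2 -/
theorem rel61 (fd : FIBD) : REL2 := by
  rintro d T hT κ ι _ A m N flc L M a r hG ⟨Y, H', g, cY, lH', pH', hg, sg, h, hh⟩ hd ⟨Z, z1, z2⟩
    O σ hD H lH
  obtain ⟨η, ps⟩ := hG.ps
  choose j₀ hj₀ D₀ t₀ d1 d2 d3 x0 d4 using ps
  have ok := hG.ok
  have := ok.conn
  have hS := ok.snc
  have lO := fun l => (hD l).lb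
  have lN := lb_lin lO fun l => ((-m l).toNat : ℤ)
  have lL := lb_mul hG.lb lN
  have lJ := fun j => lb_mul (lb_pow lL j) (lb_zp lH (-1))
  have cJ : ∀ j, cls d (((L.mul (lin O fun l => ((-m l).toNat : ℤ))).pow j).mul (zp H (-1))) =
      j • (cls d L + ∑ l, (-m l).toNat • cls d (O l)) - cls d H := fun j => by
    rw [cls_mul (lb_pow lL j) (lb_zp lH _), cls_pow lL, cls_mul hG.lb lN, cls_mon hD, cls_zp lH,
      neg_one_zsmul, sub_eq_add_neg]
  choose S s1 s2 using fun j => St.start_of genS d r A.Z Y g H' _ κ A.G (fun _ => 0) cY hg lH' pH'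
    (lJ j) hS
  obtain ⟨Q, q1, q2⟩ := genS d r A.Z Y g _ A.G hg hS
  obtain ⟨x, hy⟩ := (((((Neg.iUnion s1).union q1.neg).pre fun S k => k.pre_surj hg sg).union
    (Neg.iUnion fun k => (thin (d1 k) (d3 k) (d4 k)).neg)).union
      (Neg.iUnion fun k => (z1 k).neg)).dense.nonempty
  have hr := q2 _ fun c => hy (.inl (.inl (.inr c)))
  obtain ⟨e, he⟩ := Nat.exists_eq_add_of_le (hr.sbm hg hS rfl).le
  obtain ⟨F, i, hi, hs⟩ := hr.fib he hg hS
  obtain ⟨u, rfl⟩ := hi.ex (rfl : x ∈ g ⁻¹' {g x})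
  obtain ⟨C, j, cC, hj⟩ := comp_emb F u
  obtain ⟨u, rfl⟩ := hj.ex mem_connectedComponent
  have sj : ∀ z, Sbm e e j z := fun z => imm_iff_sbm.1 (hj.imm z)
  have hk : HolM e d fun z => i (j z) := hi.hol.comp hj.hol
  have sC := snc_pull hj.hol sj hs
  have pC : C.Prj := ok.prj.elim fun H h => ⟨_, hk.lb h.1, Lf.pos_pull hk
    (fun z => Imm.comp (hi.hol.at _) (hj.hol.at z) (hi.imm _) (hj.imm z)) h.2⟩
  have hO : ∀ l, IsDiv e (j ⁻¹' (i ⁻¹' A.G l)) (pull (fun z => i (j z)) (O l))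
      fun a z => σ l a (i (j z)) := fun l => ⟨hk.lb (lO l), hk.sec (hD l).sec,
    fun a z ha => (sj z).leq (hj.hol.at z) (hr.leq1 hg hS hi ((hD l).leq a _ ha))⟩
  have lP := hk.lb ok.lb
  have l0 := lb_lin (fun l => (hO l).lb) fun l => ((-m l).toNat : ℤ)
  have l1 := lb_mul lP l0
  have c1 := (cls_mul lP l0).trans (congrArg _ (cls_mon hO fun l => (-m l).toNat))
  have cK : cls e (Bd.can e C.X) = hk.pic (cls d (Bd.can d A.Z.X)) := by
    rw [can_imm hj.hol hj.imm, Ri.On.cls_can hr hg hS hi, ← cls_pull hi.hol isLB_can,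
      ← cls_pull hj.hol (hi.hol.lb isLB_can), ← cls_pull hk isLB_can]
    rfl
  have c2 := c1.trans (show _ = N • cls e (Bd.can e C.X) +
      ∑ l, max (m l) 0 • cls e (pull (fun z => i (j z)) (O l)) by
    rw [cls_pull hk ok.lb, Xc.cls_eq d _ _ m N A O σ ok hD, map_add, map_nsmul, map_sum, ← cK,
      add_assoc, ← Finset.sum_add_distrib]
    refine congrArg _ (Finset.sum_congr rfl fun l _ => ?_)
    rw [map_zsmul, ← cls_pull hk (lO l), ← natCast_zsmul, ← add_smul]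
    exact congrArg (· • _) (by omega))
  have lt : ∀ l, max (m l) 0 < N := fun l => max_lt (hG.klt l) (by exact_mod_cast ok.pos)
  obtain ⟨Ω, ok'⟩ := Mm.mkpr e _ C _ _ _ _ (fun l => max (m l) 0) N cC pC sC hO l1 ok.pos ok.even
    (fun l => (lt l).le) c2
  have c3 : cls e ((pull (fun z => i (j z)) A.P).mul
        (lin (fun l => pull (fun z => i (j z)) (O l)) fun l => ((-m l).toNat : ℤ))) +
      cls e (pull (fun z => i (j z)) M) = cls e (pull (fun z => i (j z)) L) +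
        ∑ l, (-m l).toNat • cls e (pull (fun z => i (j z)) (O l)) := by
    rw [c1, cls_pull hk hG.lb, hG.cl, map_add, ← cls_pull hk ok.lb, ← cls_pull hk hG.lbM,
      add_right_comm]
  rcases fd e (by omega) T hT _ _ _ _ _ flc _ _ _ _ (fun l => (-m l).toNat) ok'
    (fun l => ⟨le_max_right _ _, lt l⟩) hO (hk.lb hG.lb) (hk.lb hG.lbM)
    (Tp.nf_comp hk ok.prj hG.lb hG.nef) (Tp.nf_comp hk ok.prj hG.lbM hG.nfM) c3
    ⟨hk.pic η, fun k => ⟨j₀ k, hj₀ k, by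
      have e := Tp.ef_add (⟨_, _, hk.lb (d1 k), rfl, hk.sec (d3 k), u, not_not.1 fun c =>
        hy (.inl (.inr (mem_iUnion.2 ⟨k, c⟩)))⟩ : Ef C _)
        (Tp.ef_smul (Tp.ef_smul (ef_mon hO fun l => (-m l).toNat) k) (j₀ k))
      rw [cls_pull hk (d1 k), d2 k, map_nsmul, map_add, map_nsmul, ← cls_pull hk ok.lb,
        ← smul_add, add_right_comm, ← smul_add, ← c1] at e
      exact e⟩⟩ with hB | hB
  · obtain ⟨b, -, E, v, lE, cE, v1, v2⟩ := hB _ (hk.lb lH)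
    have l2 := hk.lb (lJ b)
    obtain ⟨φ, hφ⟩ := (cls_eq l2 lE).1 (by
      refine .trans ?_ (cE.trans (congrArg (fun y => b • y - _) c3)).symm
      rw [cls_pull hk (lJ b), cJ, map_sub, map_nsmul, map_add, map_sum, cls_pull hk hG.lb,
        cls_pull hk lH]
      simp only [map_nsmul, cls_pull hk (lO _)])
    have w1 := hφ.sec l2 lE v1
    obtain ⟨y, y1, y2⟩ := ((Tp.dense_nz' (V := C) l2 w1 (v2.imp fun _ => hφ.nz lE)).inter_of_isOpen_right
      (snc_dense_off sC) (snc_open_off sC)).nonempty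
    obtain ⟨t, t1, p, t2, t3⟩ := (sy_zero (hi.hol.lb (lJ b))).1 (Ri.ext0 e d 0 C F A.Z i j _ _ _ A.G
      (fun _ => 0) hj ((sy_zero l2).2 ⟨_, secP_of_sec hk.cont w1 fun _ => le_rfl, y, y2, y1⟩))
    obtain ⟨a₀, ha⟩ := s2 b _ (fun c => hy (.inl (.inl (.inl (mem_iUnion.2 ⟨b, c⟩))))) e F i hi t t1
    obtain ⟨c, hc⟩ := lH'.cover (g (i (j u)))
    obtain ⟨s, k1, k2⟩ := ha a₀ le_rfl c hc
    have l3 := hg.lb (lb_pow lH' a₀)
    have l4 := lb_mul (lJ b) l3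
    obtain ⟨s', k3, k4⟩ := k1.isSec hS l4 fun _ => one_pos
    obtain ⟨q, hq⟩ := (lJ b).cover (i p)
    have hq' : i p ∈ (Bd.mul _ (pull g (H'.pow a₀))).U (q, c) :=
      ⟨hq, show g (i p) ∈ H'.U c from (hi.fib p).symm ▸ hc⟩
    have ef : Ef A.Z _ := ⟨_, s', l4, rfl, k3, i p,
      (nz_iff l4 (fun a b => k3.change a b _) hq').2 (by
        rw [k4 _ _ hq' t2, k2 p q t2 hq]; exact t3 q hq)⟩
    refine ⟨b + a₀ * a, b, h, fun k => ?_⟩
    obtain ⟨j', j1, j2⟩ := hh (k * a₀)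
    refine ⟨j', j1, ?_⟩
    have e := Tp.ef_add j2 (Tp.ef_smul (Tp.ef_smul ef k) j')
    rw [cls_mul (lJ b) l3, cJ, cls_pull hg (lb_pow lH' a₀), cls_pow lH', map_nsmul,
      ← cls_pull hg lH'] at e
    refine (congrArg (Ef A.Z) ?_).mp e
    simp only [mul_smul, ← Finset.smul_sum]
    module
  · refine (hB ⟨fun k => (fun z => i (j z)) ⁻¹' Z k, fun k => ((z1 k).1.pre hk).thin fun c =>
      hy (.inr (mem_iUnion.2 ⟨k, eq_univ_iff_forall.1 c u⟩)), ?_⟩).elim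
    rintro y ⟨B, f, hf, cB, ⟨w, rfl⟩, ⟨c, c', hc⟩, hI⟩
    rw [← preimage_iUnion]
    refine z2 ⟨B, _, hk.comp hf, cB, ⟨w, rfl⟩, ⟨c, c', fun k => hc (hj.inj (hi.inj k))⟩, ?_⟩
    rw [← hT.c1.pull hf _ (hk.lb hG.lb)] at hI
    rw [← hT.c1.pull (hk.comp hf) _ hG.lb]
    exact hI

end Vale.Agent.P270U
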