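import Vale.Agent.P270U.Defs
import Vale.Agent.P285S.Sf.Al0
import Vale.Agent.P285W.Bs.Desc
import Vale.Agent.P285S.Tp.Thr
import Vale.Agent.P285W.J.Top

/-!
# P270U: semiample bundles are big or trivial on a covering family of curves
-/

open Set
open Vale.Agent.P272.K Vale.Agent.P285.H281.FD Vale.Agent.P281Z Vale.Agent.P280Z
open Vale.Agent.P285W Vale.Agent.P285W.J Vale.Agent.P285W.Bs
open Vale.Agent.P285S.Tp (ef_add ef_smul)

noncomputable section

namespace Vale.Agent.P270U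

namespace SmdH

theorem ef_bpf {d : ℕ} {Y : Mf d} [Nonempty Y.X] {B : Bd Y.X} (lB : IsLB d B) (h : Bpf d B) :
    P285S.Ef Y (cls d B) :=
  let ⟨s, h1, h2⟩ := h (Classical.arbitrary _)
  ⟨B, s, lB, rfl, h1, _, h2⟩

theorem ex_bpf {T : CT} (hT : T.OK) {n : ℕ} {V : Mf n} {H E : Bd V.X} (hH : IsLB n H)
    (kH : T.Kc V (T.c1 V H)) (hE : IsLB n E) :
    ∃ r q₀ : ℕ, ∀ q ≥ q₀, Bpf n (((H.pow r).mul E).pow q) := by
  obtain ⟨c, -, hc⟩ := hT.po.opn kH _ (hT.tp.c1 V E hE) (hT.c1.deg V E)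
  have := kc_add hT hc (nn_smul hT (sub_nonneg.2 (Nat.le_ceil c)) (kc_nn hT kH))
  rw [add_right_comm, ← add_smul, add_sub_cancel] at this
  exact ⟨_, DescX.bpf (lb_mul (lb_pow hH _) hE) (DescX.pos hT hH hE this)⟩

theorem serre {T : CT} (hT : T.OK) {d : ℕ} {Y : Mf d} [ConnectedSpace Y.X] {B H : Bd Y.X}
    (lB : IsLB d B) (kB : T.Kc Y (T.c1 Y B)) (lH : IsLB d H) :
    ∃ j : ℕ, P285S.Ef Y (j • cls d B - cls d H) := by
  have l0 := lb_zp lH (-1)
  obtain ⟨r, q, h1⟩ := ex_bpf hT lB kB l0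
  obtain ⟨r', q', h2⟩ := ex_bpf hT lB kB lH
  have l1 := lb_mul (lb_pow lB r) l0
  have l2 := lb_mul (lb_pow lB r') lH
  refine ⟨(q + q' + 1) * r + (q + q') * r', ?_⟩
  convert ef_add (ef_bpf (lb_pow l1 _) (h1 (q + q' + 1) (by omega)))
    (ef_bpf (lb_pow l2 _) (h2 (q + q') (by omega))) using 1
  rw [cls_pow l1, cls_pow l2, cls_mul (lb_pow lB r) l0, cls_mul (lb_pow lB r') lH, cls_pow lB,
    cls_pow lB, cls_zp lH]
  module

end SmdH

/-- **SMD** -/
theorem smdb : SMD := by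
  intro T hT d Y Z π S hπ P L c e cZ pY lP ⟨k, k0, bP⟩ lL nL c0 he eP
  refine or_iff_not_imp_right.2 fun ng H lH => ?_
  have := cZ.conn
  have cY : Cp Y := ⟨hπ.conn, pY⟩
  have := cY.conn
  have l1 := lb_pow lP k
  have bg : Bf T Y (T.c1 Y (P.pow k)) := ⟨_, l1, bP, rfl⟩
  obtain ⟨h, m, kh, D, s, lD, hs, hd, eD⟩ : ∃ (h : T.H Y) (m : ℕ), T.Kc Y h ∧
      Ef T Y ((m : ℝ) • T.c1 Y (P.pow k) - h) := by
    cases d with
    | zero =>
      obtain ⟨A, lA, pA⟩ := pY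
      refine ⟨_, 0, hT.c1.pos Y A lA pA, ?_⟩
      rw [dg_zero hT (hT.c1.deg Y A) one_pos, Nat.cast_zero, zero_smul, sub_zero]
      exact ef_zero hT
    | succ d =>
      obtain ⟨-, a, ka, ba⟩ := negl.kah _ Z cZ.prj T hT
      obtain ⟨x, hx⟩ := hπ.thin_pre.2.nonempty
      have ng' := bf_nf hT bg
      have na := nf_pull hT hπ.hol (kc_nf hT ka)
      have k1 : (0 : ℝ) < k := Nat.cast_pos.2 k0
      refine (kod T hT d Y _ this pY bg ((mn_int hT (ng'.mn.pow _)).lt_of_ne' fun h0 => ?_)).imp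
        fun h ⟨m, a1, _, a3⟩ => ⟨m, a1, a3⟩
      have key : ∀ i j, i + j = d + 1 →
          T.int Y (T.pull hπ.hol a ^ i * T.c1 Y (P.pow k) ^ j) = 0 := fun i => by
        induction i with
        | zero => exact fun j hj => by rwa [pow_zero, one_mul, ← zero_add j, hj]
        | succ i ih =>
          intro j hj
          rw [pow_succ', mul_assoc]
          refine P285S.Sf.endf T hT d Z Y π hπ.hol _ a _ _ ⟨cZ, nf_of hT cZ.prj lL nL, ka, ba⟩ cY
            ⟨x, hπ.imm hx⟩ (not_not.1 ng) bg ⟨(k * c)⁻¹, by positivity, fun y hy => ?_⟩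
            ((na.mn.pow i).mul (ng'.mn.pow j)) (by
              rw [mul_left_comm, ← pow_succ']; exact ih _ (by omega))
          rw [le_inv_mul_iff₀ (by positivity), hT.c1.pow Y P k lP, eP]
          have q := mul_nonneg k1.le (ef_int hT he hy)
          simp only [smul_add, add_mul, smul_mul_assoc, map_add, map_smul, smul_eq_mul]
          linarith
      exact (imm_pos hT hπ.hol (hπ.imm hx) ka).ne' (by simpa using key (d + 1) 0 rfl)
  have l2 := lb_zp lD (-(1 : ℕ))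
  have l3 := lb_mul (lb_pow l1 m) l2
  obtain ⟨j, hj⟩ := SmdH.serre hT l3 (by
    rw [hT.c1.mul Y _ _ (lb_pow l1 m) l2, hT.c1.pow Y _ m l1, c1_zp hT lD, eD]
    simpa using kh) lH
  refine ⟨j * m * k + k, by omega, ?_⟩
  convert ef_add (ef_add hj (ef_smul ⟨D, s, lD, rfl, hs, hd.nonempty⟩ j)) (SmdH.ef_bpf l1 bP)
    using 1
  rw [cls_mul (lb_pow l1 m) l2, cls_pow l1, cls_pow lP, cls_zp lD]
  push_cast
  module

end Vale.Agent.P270U
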