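import Vale.Agent.P270U.Defs2
import Vale.Agent.P270H.Top

/-!
# P270U: the assembly
-/

open Set
open Vale.Agent.P272.K Vale.Agent.P285.H281.FD Vale.Agent.P281Z Vale.Agent.P280Z
open Vale.Agent.P277.HD (pull)
open Vale.Agent.P285N.Tp (Rd flc Eff)
open Vale.Agent.P285N.St (SubPair Psef)
open Vale.Agent.P285W.J (Tr)
open Vale.Agent.P285W.Bs (Cp)
open Vale.Agent.P285S (Pse)
open Vale.Agent.P280Z.Co (ct ct_ok)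
open Vale.Agent.P285T.Cb (Ud ONE0 CBF)
open Vale.Agent.P270H (Sm Ok pse_up)

namespace Vale.Agent.P270U

theorem Dm.up {d r : ℕ} {Z Y : Mf d} {π : Y.X → Z.X} {S : Set Z.X} (hπ : Modif d π S)
    {β : Pic d Z.X} (h : Dm Z β r) : Dm Y (hπ.hol.pic β) r := by
  obtain ⟨W, H, g, h1, h2, h3, h4, h5, x, h6⟩ := h
  refine ⟨W, H, fun y => g (π y), h1, h2, h3, h4.comp hπ.hol, h5.comp hπ.surj, hπ.hol.pic x,
    fun k => (h6 k).imp fun j k => ⟨k.1, ?_⟩⟩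
  have e := P285S.Tp.ef_pull hπ k.2
  rw [map_nsmul, map_add, map_nsmul, map_sub, ← cls_pull hπ.hol (h4.lb h2)] at e
  exact e

theorem Kp.eff {n r : ℕ} {V : Mf n} {C : Bd V.X} (h : Kp V C r) : Eff n C :=
  let ⟨j, s, h1, h2, x, _, a, h3, h4, _⟩ := h
  ⟨j, h1, s 0, h2 0, a, x, h3, h4⟩

/-- the base point free theorem -/
def BPX : Prop := ∀ d, P270G.ForP d fun T _ _ _ A m N => ∀ L M : Bd A.Z.X,
  P270H.G0 A m N L M → P270H.Bp A m L → Big A.Z (cls d L) → Sm T A.Z (T.c1 A.Z L)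

theorem bpx_of (bpa : BPA) (bpb : BPB) : BPX := by
  intro d T hT κ ι _ A m N L M g bp bg
  obtain ⟨κ₂, _, A₂, m₂, ρ, S₂, O, σ, a', c, x, b, H, hρ, g1, g2, g3, g4, g5, g6, g7, g8, g9, g0⟩ :=
    bpa d T hT κ ι A m N _ _ g bp bg
  refine ⟨A₂.Z, ρ, S₂, hρ, _, 1, g1.ok.prj, g1.lb,
    bpb d T hT κ₂ ι A₂ m₂ N _ _ H O σ a' c x b g1 g2 g3 g4 g5 g6 g7 g8 g9 g0, one_pos, ?_⟩
  rw [Nat.cast_one, one_smul]
  exact hT.c1.pull hρ.hol _ g.lb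

theorem bgs_of (md : MOD) (tru : TRU) (rel : REL) (bgn : BGN) (bp : BPX) : BGS := by
  intro d T hT κ ι _ A m N hF L M a r h ⟨W, τ, S, hτ, pW, dm⟩ hd hN
  obtain ⟨κ', _, A', m', π, S', hπ, g, e⟩ := md d T hT κ ι A m N L M W τ S h hτ pW
  have k := hτ.comp rem hπ
  have e1 : T.c1 A'.Z (pull π (pull τ L)) = (1 : ℝ) • T.pull k.hol (T.c1 A.Z L) := by
    rw [one_smul]
    exact hT.c1.pull k.hol _ h.lb
  have l1 := hτ.hol.lb h.ok.lb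
  have b1 := rel d T hT κ' ι A' m' N hF _ _ a r g (by
    have k1 := dm.up hπ
    rwa [cls_pull hτ.hol (lb_pow h.ok.lb a), cls_pow h.ok.lb, map_nsmul, map_nsmul,
      ← cls_pull hτ.hol h.ok.lb, ← cls_pull hπ.hol l1, ← e] at k1) hd
    (e1 ▸ tru T hT d _ _ _ _ k _ 1 ⟨h.ok.conn, h.ok.prj⟩ g.ok.prj one_pos (.inl hN))
  exact Sm.down hT k one_pos (by rw [Nat.cast_one]; exact e1)
    (bp d T hT κ' ι A' m' N _ _ g.toG0 g.bp (bgn d T hT κ' ι A' m' N _ g.ok g.lb g.bp b1))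

theorem bgs2_of (md : MOD) (tru : TRU) (rel : REL2) (bgn : BGN) (bp : BPX) : BGS2 := by
  intro d T hT κ ι _ A m N hF L M a r h ⟨W, τ, S, hτ, pW, dm⟩ hd hN
  obtain ⟨κ', _, A', m', π, S', hπ, g, -⟩ := md d T hT κ ι A m N L M W τ S h hτ pW
  have k := hτ.comp rem hπ
  have e1 : T.c1 A'.Z (pull π (pull τ L)) = (1 : ℝ) • T.pull k.hol (T.c1 A.Z L) := by
    rw [one_smul]
    exact hT.c1.pull k.hol _ h.lb
  have b1 := rel d T hT κ' ι A' m' N hF _ _ a r g (by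
    have k1 := dm.up hπ
    rwa [cls_pull hτ.hol (lb_pow h.lb a), cls_pow h.lb, map_nsmul, map_nsmul,
      ← cls_pull hτ.hol h.lb, ← cls_pull hπ.hol (hτ.hol.lb h.lb)] at k1) hd
    (e1 ▸ tru T hT d _ _ _ _ k _ 1 ⟨h.ok.conn, h.ok.prj⟩ g.ok.prj one_pos (.inl hN))
  exact Sm.down hT k one_pos (by rw [Nat.cast_one]; exact e1)
    (bp d T hT κ' ι A' m' N _ _ g.toG0 g.bp (bgn d T hT κ' ι A' m' N _ g.ok g.lb g.bp b1))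

/-- **KG** from the rows -/
theorem kg_of (nsd : P270G.NSD) (st0 : P270H.ST0) (crp : P270H.CRP) (fk0 : P270H.FK0)
    (fk1 : P270H.FK1) (one0 : ONE0) (cbf : CBF) (wpr : P270H.WPR) (fpd : P270H.FPD)
    (psb : P270H.PSB) (amb : P270H.AMB) (gdw : P270H.GDW) (gup : P270H.GUP) (en : P270H.END)
    (tru : TRU) (bgs : BGS) (gf0 : GF0) (fke : FKE) (ned : NED) (mpu : MPU) (mp0 : MP0) : KG := by
  intro n d r V Q D t q C L hQ K lL nL iso kp hn hd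
  obtain ⟨d', h1, h2, h3⟩ := P285T.Cb.AsmH.mx
    (p := fun d => ¬ Neg n (P285W.Bs.Gd ct V (ct.c1 V Q.L) d)) (fun _ => P285T.Cb.AsmH.gd_le) hd
  have h4 := P285T.Cb.AsmH.gd_le h2
  have cV : Cp V := ⟨hQ.conn, hQ.prj⟩
  have lQ := hQ.bir.res.lbL
  obtain ⟨hC, κ, ι, _, A, m, N, π, S, k, M', hπ, kp0, g, e⟩ :=
    gf0 n V Q D t q C L hQ K kp.eff lL nL iso
  rcases d' with _ | e'
  · have e1 : ct.c1 A.Z ((pull π Q.L).pow k) = (k : ℝ) • ct.pull hπ.hol (ct.c1 V Q.L) := by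
      rw [ct_ok.c1.pow _ _ _ (hπ.hol.lb lQ), ct_ok.c1.pull hπ.hol _ lQ]
    obtain ⟨a, mp⟩ := mp0 ct ct_ok flc n r k V A.Z π S C A.P cV g.ok.prj hπ K.lb g.ok.lb kp0 e kp
    obtain ⟨Y, τ, S', hτ, P, z, p1, p2, p3, p4, p5⟩ := Sm.down ct_ok hπ kp0 e1
      (bgs n ct ct_ok κ ι A m N flc _ M' a r g mp (by omega) (e1 ▸ tru ct ct_ok n _ _ _ _ hπ _ k cV
        g.ok.prj (by exact_mod_cast kp0) (.inr ⟨ct_ok.c1.deg _ _, not_not.1 h3⟩)))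
    exact nsd ct ct_ok flc n V Y τ S' hτ Q.L P z cV p1 lQ p2 p3 p4 p5
  obtain ⟨w, rfl⟩ : ∃ w, n = w + (e' + 1) := ⟨n - (e' + 1), by omega⟩
  have hw : w ≤ r + 4 := by omega
  obtain ⟨M, U, E, hU, h5⟩ := st0 ct ct_ok w e' V Q D t q C L hQ K hC lL nL iso h2 (not_not.1 h3)
  obtain ⟨m, h6⟩ := one0 w (e' + 1) M hU.fb (Mf.Prj.kah hU.ok.prj) (Mf.Prj.kah hU.prj)
    (fk0 ct ct_ok flc w e' V Q M U C E hU h5) (fk1 ct ct_ok flc w e' V Q M U C E hU)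
  obtain ⟨M₀, F, A, u, v, ⟨U₀, E₀, k0⟩, k1, k2, k3, k4, k5⟩ := cbf w (e' + 1) m
    (fun M => ∃ (U : Ud Q M) (E : Bd M.Y.X), Ok ct U C E) (fun _ ⟨_, _, k⟩ => ⟨k.ok.prj, k.prj⟩)
    (fun M M₁ u v ⟨U, E, k⟩ a b c d f =>
      (crp ct ct_ok flc w e' V Q M U C E k M₁ u v a b c d f).imp fun _ k => k.imp fun _ k => k.1)
    M ⟨U, E, hU⟩ h6
  obtain ⟨U₁, E₁, k6, k7⟩ := crp ct ct_ok flc w e' V Q M₀ U₀ C E₀ k0 F.T.toFb u v k1.or.sn.ok k2 k3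
    k4 k1.or.sn.connG
  obtain ⟨B, A', z, b1, b2⟩ := wpr ct ct_ok flc w e' m V Q F A U₁ C E₁ k6 k1
    fun l => (k5 l).imp_left (k7 l)
  obtain ⟨S₀, hπ'⟩ := k6.md
  have ps : Pse F.T.Y (cls w B.P) := psb ct ct_ok _ w F.T.X F.T.Y _ k6.fb.fibn.hol U₁.P B.P
    (z * U₁.c) ⟨k6.ok.conn, k6.ok.prj⟩ b1.cp k6.fb.fibn.surj k6.ok.lb b1.lb
    (by rw [b2.cl, map_smul, k6.cE, smul_smul, Nat.cast_mul])
    (k6.cl ▸ pse_up hπ' hQ.prj k6.lbC hC _)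
  obtain ⟨κ, ι, _, P, μ, N, τ, z', b3, b4⟩ := gdw w _ B b1 (amb w _ B b1 (fke w _ B b1
    (ned ct ct_ok flc w e' V Q _ U₁ C E₁ k6 kp.eff B.P z b1.lb b2.cl)))
  obtain ⟨M', b5⟩ := gup ct ct_ok w _ B κ ι P μ N τ z' z U₁.D E₁ b1 ps b3 b4 k6.lbD k6.lbE k6.nfD
    k6.nfE b2.cl (fpd ct ct_ok flc w e' V Q _ U₁ C E₁ k6 B A' z b1 b2)
  obtain ⟨S, hτ⟩ := b3.md
  have zp := Nat.mul_pos b3.zp b2.zp
  have l1 := hτ.hol.lb b1.lb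
  have e1 : ct.c1 P.Z ((pull τ U₁.D).pow (z' * z)) =
      ((z' * z : ℕ) : ℝ) • ct.pull hτ.hol (ct.c1 F.T.Y U₁.D) := by
    rw [ct_ok.c1.pow _ _ _ (hτ.hol.lb k6.lbD), ct_ok.c1.pull hτ.hol _ k6.lbD]
  obtain ⟨a, mp⟩ := mpu ct ct_ok flc w e' V Q _ U₁ C E₁ k6 r (z' * z) P.Z τ S hτ P.P kp b3.ok.prj
    b3.ok.lb zp (by
      rw [P270G.GdfH.c1_cls ct_ok b3.ok.lb (lb_pow l1 z') (b3.cl.trans (cls_pow l1 z').symm),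
        ct_ok.c1.pow _ _ _ l1, ct_ok.c1.pull hτ.hol _ b1.lb, b2.cl, map_smul, smul_smul,
        Nat.cast_mul])
  exact en ct ct_ok flc w e' V Q _ U₁ C E₁ k6 (Sm.down ct_ok hτ zp e1
    (bgs w ct ct_ok κ ι P μ N flc _ M' a r b5 mp hw (e1 ▸ tru ct ct_ok w _ _ _ _ hτ _ _ b1.cp
      b3.ok.prj (by exact_mod_cast zp) (.inl k6.ntb))))

/-- **KG2** from the rows -/
theorem kg2_of (nsd : P270G.NSD) (st0 : P270H.ST0) (crp : P270H.CRP) (fk0 : P270H.FK0)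
    (fk1 : P270H.FK1) (one0 : ONE0) (cbf : CBF) (wpr : P270H.WPR) (fpd : P270H.FPD)
    (psb : P270H.PSB) (amb : P270H.AMB) (gdw : P270H.GDW) (gup : P270H.GUP) (en : P270H.END)
    (tru : TRU) (bgs : BGS2) (gf0 : GF0) (fke : FKE) (ned : NED) (mpu : MPU2) (mp0 : MP02) :
    KG2 := by
  intro n d r i j V Q D t q C L hQ K lL nL iso ef kp hn hd
  obtain ⟨d', h1, h2, h3⟩ := P285T.Cb.AsmH.mx
    (p := fun d => ¬ Neg n (P285W.Bs.Gd ct V (ct.c1 V Q.L) d)) (fun _ => P285T.Cb.AsmH.gd_le) hd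
  have h4 := P285T.Cb.AsmH.gd_le h2
  have cV : Cp V := ⟨hQ.conn, hQ.prj⟩
  have lQ := hQ.bir.res.lbL
  obtain ⟨hC, κ, ι, _, A, m, N, π, S, k, M', hπ, kp0, g, -⟩ :=
    gf0 n V Q D t q C L hQ K ef lL nL iso
  rcases d' with _ | e'
  · have e1 : ct.c1 A.Z ((pull π Q.L).pow k) = (k : ℝ) • ct.pull hπ.hol (ct.c1 V Q.L) := by
      rw [ct_ok.c1.pow _ _ _ (hπ.hol.lb lQ), ct_ok.c1.pull hπ.hol _ lQ]
    obtain ⟨a, mp⟩ := mp0 n i j r k V A.Z π S C L Q.L cV g.ok.prj hπ K.lb lL lQ kp0 iso hC nL kp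
    obtain ⟨Y, τ, S', hτ, P, z, p1, p2, p3, p4, p5⟩ := Sm.down ct_ok hπ kp0 e1
      (bgs n ct ct_ok κ ι A m N flc _ M' a r g mp (by omega) (e1 ▸ tru ct ct_ok n _ _ _ _ hπ _ k cV
        g.ok.prj (by exact_mod_cast kp0) (.inr ⟨ct_ok.c1.deg _ _, not_not.1 h3⟩)))
    exact nsd ct ct_ok flc n V Y τ S' hτ Q.L P z cV p1 lQ p2 p3 p4 p5
  obtain ⟨w, rfl⟩ : ∃ w, n = w + (e' + 1) := ⟨n - (e' + 1), by omega⟩
  have hw : w ≤ r + 4 := by omega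
  obtain ⟨M, U, E, hU, h5⟩ := st0 ct ct_ok w e' V Q D t q C L hQ K hC lL nL iso h2 (not_not.1 h3)
  obtain ⟨m, h6⟩ := one0 w (e' + 1) M hU.fb (Mf.Prj.kah hU.ok.prj) (Mf.Prj.kah hU.prj)
    (fk0 ct ct_ok flc w e' V Q M U C E hU h5) (fk1 ct ct_ok flc w e' V Q M U C E hU)
  obtain ⟨M₀, F, A, u, v, ⟨U₀, E₀, k0⟩, k1, k2, k3, k4, k5⟩ := cbf w (e' + 1) m
    (fun M => ∃ (U : Ud Q M) (E : Bd M.Y.X), Ok ct U C E) (fun _ ⟨_, _, k⟩ => ⟨k.ok.prj, k.prj⟩)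
    (fun M M₁ u v ⟨U, E, k⟩ a b c d f =>
      (crp ct ct_ok flc w e' V Q M U C E k M₁ u v a b c d f).imp fun _ k => k.imp fun _ k => k.1)
    M ⟨U, E, hU⟩ h6
  obtain ⟨U₁, E₁, k6, k7⟩ := crp ct ct_ok flc w e' V Q M₀ U₀ C E₀ k0 F.T.toFb u v k1.or.sn.ok k2 k3
    k4 k1.or.sn.connG
  obtain ⟨B, A', z, b1, b2⟩ := wpr ct ct_ok flc w e' m V Q F A U₁ C E₁ k6 k1
    fun l => (k5 l).imp_left (k7 l)
  obtain ⟨S₀, hπ'⟩ := k6.md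
  have ps : Pse F.T.Y (cls w B.P) := psb ct ct_ok _ w F.T.X F.T.Y _ k6.fb.fibn.hol U₁.P B.P
    (z * U₁.c) ⟨k6.ok.conn, k6.ok.prj⟩ b1.cp k6.fb.fibn.surj k6.ok.lb b1.lb
    (by rw [b2.cl, map_smul, k6.cE, smul_smul, Nat.cast_mul])
    (k6.cl ▸ pse_up hπ' hQ.prj k6.lbC hC _)
  obtain ⟨κ, ι, _, P, μ, N, τ, z', b3, b4⟩ := gdw w _ B b1 (amb w _ B b1 (fke w _ B b1
    (ned ct ct_ok flc w e' V Q _ U₁ C E₁ k6 ef B.P z b1.lb b2.cl)))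
  obtain ⟨M', b5⟩ := gup ct ct_ok w _ B κ ι P μ N τ z' z U₁.D E₁ b1 ps b3 b4 k6.lbD k6.lbE k6.nfD
    k6.nfE b2.cl (fpd ct ct_ok flc w e' V Q _ U₁ C E₁ k6 B A' z b1 b2)
  obtain ⟨S, hτ⟩ := b3.md
  have zp := Nat.mul_pos b3.zp b2.zp
  have e1 : ct.c1 P.Z ((pull τ U₁.D).pow (z' * z)) =
      ((z' * z : ℕ) : ℝ) • ct.pull hτ.hol (ct.c1 F.T.Y U₁.D) := by
    rw [ct_ok.c1.pow _ _ _ (hτ.hol.lb k6.lbD), ct_ok.c1.pull hτ.hol _ k6.lbD]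
  obtain ⟨a, mp⟩ := mpu ct ct_ok flc w e' V Q _ U₁ C E₁ k6 L i j r (z' * z) P.Z τ S hτ _ lL iso hC kp
    b3.ok.prj b5.lb zp e1
  exact en ct ct_ok flc w e' V Q _ U₁ C E₁ k6 (Sm.down ct_ok hτ zp e1
    (bgs w ct ct_ok κ ι P μ N flc _ M' a r b5 mp hw (e1 ▸ tru ct ct_ok w _ _ _ _ hτ _ _ b1.cp
      b3.ok.prj (by exact_mod_cast zp) (.inl k6.ntb))))

end Vale.Agent.P270U
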